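import Vale.Agent.P151.Zd.Unique

/-!
# Events decided by finitely many edges: continuity in the parameter, and openness

A finite list of strict lower bounds on such events survives a small decrease of the parameter.
-/

namespace Vale.Agent.P151.Zd

open MeasureTheory ProbabilityTheory Finset Filter Topology Vale.Agent.P165 Vale.Agent.P151

variable {V : Type} [DecidableEq V] {G : SimpleGraph V}

/-- The event only looks at the edges in `E`. -/
def DependsOn (G : SimpleGraph V) (E : Finset (Sym2 V)) (A : Set (Config G)) : Prop :=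
  ∀ ω ω' : Config G, (∀ e : G.edgeSet, (e : Sym2 V) ∈ E → ω e = ω' e) → (ω ∈ A ↔ ω' ∈ A)

omit [DecidableEq V] in
theorem DependsOn.mono {E E' : Finset (Sym2 V)} {A : Set (Config G)} (hA : DependsOn G E A)
    (h : E ⊆ E') : DependsOn G E' A := fun ω ω' hω => hA ω ω' fun e he => hω e (h he)

/-- The configuration with exactly the edges of `η` open. -/
def ofFinset (G : SimpleGraph V) (η : Finset (Sym2 V)) : Config G :=
  fun e => decide ((e : Sym2 V) ∈ η)

open Classical in
/-- An event decided inside `E`, as a predicate on open edge sets. -/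
theorem DependsOn.eq_openIn {E : Finset (Sym2 V)} {A : Set (Config G)} (hA : DependsOn G E A) :
    A = {ω | ofFinset G (openIn (E.filter (· ∈ G.edgeSet)) ω) ∈ A} := by
  ext ω
  refine hA ω _ fun e he => ?_
  have hiff : (e : Sym2 V) ∈ openIn (E.filter (· ∈ G.edgeSet)) ω ↔ ω e = true := by
    rw [openIn, mem_filter, mem_filter]
    exact ⟨fun ⟨_, _, h⟩ => h, fun h => ⟨⟨he, e.2⟩, e.2, h⟩⟩
  rw [Bool.eq_iff_iff, ofFinset, decide_eq_true_iff, hiff]

/-- The probability of an event decided inside `E` is a polynomial in the parameter. -/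
theorem DependsOn.exists_real_eq {E : Finset (Sym2 V)} {A : Set (Config G)}
    (hA : DependsOn G E A) :
    ∃ g : ℝ → ℝ, Continuous g ∧ ∀ p : unitInterval, (perc G p).real A = g p := by
  classical
  set E' := E.filter (· ∈ G.edgeSet)
  refine ⟨fun x => avg E' x (fun η => ind (ofFinset G η ∈ A)), continuous_avg E' _, fun p => ?_⟩
  have hE : ↑E' ⊆ G.edgeSet := fun e he => (mem_filter.1 (mem_coe.1 he)).2
  conv_lhs => rw [hA.eq_openIn]
  exact real_openIn p hE fun η => ofFinset G η ∈ A

theorem DependsOn.continuous_real {E : Finset (Sym2 V)} {A : Set (Config G)}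
    (hA : DependsOn G E A) : Continuous fun p : unitInterval => (perc G p).real A := by
  obtain ⟨g, hg, hAg⟩ := hA.exists_real_eq
  simp only [hAg]
  exact hg.comp continuous_subtype_val

theorem DependsOn.measurableSet {E : Finset (Sym2 V)} {A : Set (Config G)}
    (hA : DependsOn G E A) : MeasurableSet A := by
  classical
  set E' := E.filter (· ∈ G.edgeSet)
  have hE : ↑E' ⊆ G.edgeSet := fun e he => (mem_filter.1 (mem_coe.1 he)).2
  have hset : A = ⋃ η ∈ E'.powerset.filter (fun η => ofFinset G η ∈ A), pattern G E' η := by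
    ext ω
    simp only [Set.mem_iUnion, mem_filter, mem_powerset, exists_prop]
    constructor
    · intro h
      rw [hA.eq_openIn] at h
      refine ⟨openIn E' ω, ⟨filter_subset _ _, h⟩, fun e he => ?_⟩
      simp only [openIn, mem_filter]
      exact ⟨fun hw => ⟨he, e.2, hw⟩, fun ⟨_, _, hw⟩ => hw⟩
    · rintro ⟨η, ⟨-, hηA⟩, hω⟩
      refine (hA ω (ofFinset G η) fun e he => ?_).2 hηA
      rw [Bool.eq_iff_iff, ofFinset, decide_eq_true_iff]
      exact hω e (mem_filter.2 ⟨he, e.2⟩)
  rw [hset]
  exact MeasurableSet.biUnion (Finset.countable_toSet _) fun η hη =>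
    (real_pattern (unitInterval.symm 0) hE
      (mem_powerset.1 (mem_filter.1 (mem_coe.1 hη)).1)).1

/-- Openness: finitely many strict bounds on finitary events survive a smaller parameter. -/
theorem exists_lt_preserving {I : Type} (s : Finset I) (E : I → Finset (Sym2 V))
    (A : I → Set (Config G)) (hA : ∀ i ∈ s, DependsOn G (E i) (A i)) (c : I → ℝ)
    (p : unitInterval) (hp : 0 < (p : ℝ)) (h : ∀ i ∈ s, c i < (perc G p).real (A i)) :
    ∃ q : unitInterval, 0 < (q : ℝ) ∧ (q : ℝ) < p ∧ ∀ i ∈ s, c i < (perc G q).real (A i) := by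
  classical
  choose! g hg hAg using fun i hi => (hA i hi).exists_real_eq
  have hev : ∀ᶠ x in 𝓝[<] (p : ℝ), (∀ i ∈ s, c i < g i x) ∧ x ∈ Set.Ioo (0 : ℝ) p := by
    refine Eventually.and ?_ (Ioo_mem_nhdsLT hp)
    rw [eventually_all_finset]
    intro i hi
    refine ((hg i hi).tendsto _).eventually (eventually_gt_nhds ?_) |>.filter_mono
      nhdsWithin_le_nhds
    rw [← hAg i hi p]
    exact h i hi
  obtain ⟨x, hx, hx0, hxp⟩ := hev.exists
  refine ⟨⟨x, hx0.le, hxp.le.trans p.2.2⟩, hx0, hxp, fun i hi => ?_⟩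
  rw [hAg i hi]
  exact hx i hi

end Vale.Agent.P151.Zd
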