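import Vale.Agent.P165.Main

/-!
# The nearest-neighbour lattice: shared definitions for P151

The lattice `zd d`, boxes, connections inside a vertex set, and the two events that uniqueness
of the infinite cluster rules out.
-/

namespace Vale.Agent.P151.Zd

open Finset Vale.Agent.P165

/-- The sites of the lattice. -/
abbrev Site (d : ℕ) : Type := Fin d → ℤ

/-- The nearest-neighbour lattice on `ℤ^d`: two sites are adjacent at distance one. -/
noncomputable def zd (d : ℕ) : SimpleGraph (Site d) where
  Adj x y := ∑ i, |x i - y i| = 1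
  symm := ⟨fun x y h => by simpa [abs_sub_comm] using h⟩
  loopless := ⟨fun x h => by simp at h⟩

theorem zd_adj {d : ℕ} {x y : Site d} : (zd d).Adj x y ↔ ∑ i, |x i - y i| = 1 := Iff.rfl

/-- The box of radius `n` around the origin. -/
noncomputable def box (d n : ℕ) : Finset (Site d) := Fintype.piFinset fun _ => Icc (-(n : ℤ)) n

theorem mem_box {d n : ℕ} {x : Site d} : x ∈ box d n ↔ ∀ i, |x i| ≤ n := by
  simp [box, Fintype.mem_piFinset, abs_le]

theorem box_mono (d : ℕ) {m n : ℕ} (h : m ≤ n) : box d m ⊆ box d n := fun _ hx =>
  mem_box.2 fun i => (mem_box.1 hx i).trans (by exact_mod_cast h)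

/-- The step along a coordinate, forwards or backwards. -/
def unit {d : ℕ} (a : Fin d × Bool) : Site d := Pi.single a.1 (if a.2 then 1 else -1)

/-- The neighbours of a site, labelled by coordinate and sign. -/
def step (d : ℕ) (x : Site d) (a : Fin d × Bool) : Site d := x + unit a

theorem step_labelling (d : ℕ) : Labelling (zd d) (step d) where
  inj x a b h := by
    have h' : unit a = unit b := add_left_cancel h
    obtain ⟨i, s⟩ := a
    obtain ⟨j, t⟩ := b
    by_cases hij : i = j
    · subst hij
      have := congrFun h' i
      cases s <;> cases t <;> simp [unit] at this <;> rfl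
    · have := congrFun h' i
      cases s <;> simp [unit, hij] at this
  adj x y := by
    constructor
    · intro h
      rw [zd_adj] at h
      obtain ⟨i, -, hi⟩ : ∃ i ∈ univ, |x i - y i| ≠ 0 := by
        by_contra hc
        push Not at hc
        rw [sum_eq_zero hc] at h
        exact zero_ne_one h
      rw [← add_sum_erase univ _ (mem_univ i)] at h
      have hpos : 1 ≤ |x i - y i| := Int.one_le_abs (abs_ne_zero.1 hi)
      have hnn : 0 ≤ ∑ j ∈ univ.erase i, |x j - y j| := sum_nonneg fun j _ => abs_nonneg _
      have h1 : |x i - y i| = 1 := by omega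
      have h0 : ∀ j, j ≠ i → x j = y j := fun j hj => by
        have := (sum_eq_zero_iff_of_nonneg fun j _ => abs_nonneg (x j - y j)).1
          (by omega : ∑ j ∈ univ.erase i, |x j - y j| = 0) j (mem_erase.2 ⟨hj, mem_univ j⟩)
        exact sub_eq_zero.1 (abs_eq_zero.1 this)
      refine ⟨(i, decide (x i < y i)), funext fun j => ?_⟩
      by_cases hj : j = i
      · subst hj
        rcases abs_cases (x j - y j) with ⟨e, -⟩ | ⟨e, -⟩
        · rw [h1] at e
          have hlt : ¬x j < y j := by omega
          simp [step, unit, hlt]
          omega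
        · rw [h1] at e
          have hlt : x j < y j := by omega
          simp [step, unit, hlt]
          omega
      · simp [step, unit, hj, h0 j hj]
    · rintro ⟨⟨i, s⟩, rfl⟩
      rw [zd_adj, sum_eq_single i]
      · cases s <;> simp [step, unit]
      · intro j _ hj
        simp [step, unit, hj]
      · simp

variable {V : Type}

/-- `x` and `y` are joined by an open path whose vertices all lie in `Λ`. -/
def reachWithin (G : SimpleGraph V) (Λ : Set V) (x y : V) : Set (Config G) :=
  {ω | ∃ w : (openGraph G ω).Walk x y, ∀ z ∈ w.support, z ∈ Λ}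

/-- The open cluster of `x` leaves `Λ`. -/
def arm (G : SimpleGraph V) (Λ : Set V) (x : V) : Set (Config G) :=
  {ω | ∃ z, z ∉ Λ ∧ (openGraph G ω).Reachable x z}

/-- Two vertices of `K` reach out of `Λ` but are not joined inside `Λ`. -/
def splitArms (G : SimpleGraph V) (K Λ : Set V) : Set (Config G) :=
  {ω | ∃ x ∈ K, ∃ y ∈ K, ω ∈ arm G Λ x ∧ ω ∈ arm G Λ y ∧ ω ∉ reachWithin G Λ x y}

/-- There are two distinct infinite clusters. -/
def twoInfinite (G : SimpleGraph V) : Set (Config G) :=
  ⋃ y, ⋃ z, (infAt G y ∩ infAt G z) \ reach G y z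

end Vale.Agent.P151.Zd
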