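import Vale.Agent.P151.Zd.Local
import Vale.Agent.P151.Zd.Finitary

/-!
# No percolation at the critical point, given that percolation is an open condition

If percolation at `p` forces percolation at some smaller parameter, then there is no infinite
cluster at `pc`.
-/

namespace Vale.Agent.P151.Zd

open MeasureTheory ProbabilityTheory Finset Filter Topology Vale.Agent.P165

variable {V ι : Type} [DecidableEq V] [Fintype ι] {G : SimpleGraph V} {nb : V → ι → V}

/-- A uniform chance of leaving every finite set gives percolation. -/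
theorem infAt_pos_of_arms [Countable V] (hl : Listing G nb) (q : unitInterval) (x : V)
    (Λ : ℕ → Finset V) (hmono : Monotone Λ) (hcover : ∀ v, ∃ n, v ∈ Λ n) {c : ℝ} (hc : 0 < c)
    (h : ∀ n, c ≤ (perc G q).real (arm G ↑(Λ n) x)) : 0 < perc G q (infAt G x) := by
  have hanti : Antitone fun n => arm G (↑(Λ n)) x := by
    rintro a b hab ω ⟨z, hz, hr⟩
    exact ⟨z, fun h => hz (hmono hab h), hr⟩
  have hmeas : ∀ n, MeasurableSet (arm G (↑(Λ n)) x) := fun n => by
    rw [arm_eq]
    exact MeasurableSet.iUnion fun z => MeasurableSet.iUnion fun _ => measurableSet_reach hl x z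
  have hlim := tendsto_measure_iInter_atTop (μ := perc G q)
    (fun n => (hmeas n).nullMeasurableSet) hanti ⟨0, measure_ne_top _ _⟩
  have hge : ENNReal.ofReal c ≤ perc G q (⋂ n, arm G (↑(Λ n)) x) :=
    ge_of_tendsto' hlim fun n =>
      (ENNReal.ofReal_le_iff_le_toReal (measure_ne_top _ _)).2 (h n)
  refine (ENNReal.ofReal_pos.2 hc).trans_le (hge.trans (measure_mono fun ω hω hfin => ?_))
  rw [Set.mem_iInter] at hω
  choose N hN using hcover
  obtain ⟨z, hz, hxz⟩ := hω (hfin.toFinset.sup N)
  exact hz (hmono (Finset.le_sup (f := N) (hfin.mem_toFinset.2 hxz)) (hN z))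

/-- The same with boxes, on the lattice. -/
theorem zd_infAt_pos_of_arms {d : ℕ} (q : unitInterval) {c : ℝ} (hc : 0 < c)
    (h : ∀ n, c ≤ (perc (zd d) q).real (arm (zd d) ↑(box d n) 0)) :
    0 < perc (zd d) q (infAt (zd d) 0) :=
  infAt_pos_of_arms (step_labelling d).listing q 0 (box d) (fun _ _ hab => box_mono d hab)
    exists_box_mem hc h

theorem zd_infAt_eq (d : ℕ) (p : unitInterval) (x : Site d) :
    perc (zd d) p (infAt (zd d) x) = perc (zd d) p (infAt (zd d) 0) := by
  have h := infAt_map (translate x) p (0 : Site d)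
    (measurableSet_infAt (step_labelling d).listing 0)
  simpa using h

theorem hasInfinite_pos_iff (d : ℕ) (p : unitInterval) :
    0 < perc (zd d) p (hasInfinite (zd d)) ↔ 0 < perc (zd d) p (infAt (zd d) 0) := by
  refine ⟨fun h => ?_, fun h => h.trans_le (measure_mono ?_)⟩
  · by_contra hc
    rw [not_lt, le_zero_iff] at hc
    refine h.ne' ?_
    rw [hasInfinite_eq, measure_iUnion_null_iff]
    exact fun x => (zd_infAt_eq d p x).trans hc
  · rw [hasInfinite_eq]
    exact Set.subset_iUnion (fun y => infAt (zd d) y) 0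

/-- If percolation is an open condition, there is no percolation at the critical point. -/
theorem no_percolation_at_pc (d : ℕ)
    (h : ∀ p : unitInterval, 0 < perc (zd d) p (infAt (zd d) 0) →
      ∃ q : unitInterval, (q : ℝ) < p ∧ 0 < perc (zd d) q (infAt (zd d) 0))
    (p : unitInterval) (hp : (p : ℝ) = pc (zd d)) :
    perc (zd d) p (hasInfinite (zd d)) = 0 ∧ ∀ x, perc (zd d) p (infAt (zd d) x) = 0 := by
  have h0 : perc (zd d) p (infAt (zd d) 0) = 0 := by
    by_contra hne
    obtain ⟨q, hqp, hq⟩ := h p (pos_iff_ne_zero.2 hne)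
    have hle : pc (zd d) ≤ (q : ℝ) :=
      csInf_le ⟨0, by rintro _ ⟨r, -, rfl⟩; exact r.2.1⟩
        ⟨q, (hasInfinite_pos_iff d q).2 hq, rfl⟩
    linarith
  refine ⟨?_, fun x => (zd_infAt_eq d p x).trans h0⟩
  by_contra hne
  exact ((hasInfinite_pos_iff d p).1 (pos_iff_ne_zero.2 hne)).ne' h0

/-- Percolation needs a positive parameter. -/
theorem pos_of_infAt_pos {d : ℕ} {p : unitInterval}
    (h : 0 < perc (zd d) p (infAt (zd d) 0)) : 0 < (p : ℝ) := by
  rcases p.2.1.eq_or_lt with h0 | h0
  · refine absurd (measure_mono_null (t := ⋃ a, openOn (zd d) {s((0 : Site d), step d 0 a)})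
      (fun ω hω => ?_) (measure_iUnion_null fun a => ?_)) h.ne'
    · obtain ⟨u, hu, hne⟩ := Set.Infinite.exists_notMem_finset hω {(0 : Site d)}
      obtain ⟨w⟩ := hu
      cases w with
      | nil => simp at hne
      | cons hab _ =>
        obtain ⟨hG, hw⟩ := hab
        obtain ⟨a, rfl⟩ := ((step_labelling d).adj _ _).1 hG
        refine Set.mem_iUnion.2 ⟨a, fun e he => ?_⟩
        have : e = ⟨s((0 : Site d), step d 0 a), hG⟩ := Subtype.ext (mem_singleton.1 he)
        rw [this]
        exact hw
    · have h' := real_openOn (G := zd d) p (S := {s((0 : Site d), step d 0 a)})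
        (by simpa using (step_labelling d).adj_nb 0 a)
      rw [card_singleton, pow_one, ← h0, measureReal_def, ENNReal.toReal_eq_zero_iff] at h'
      exact h'.resolve_right (measure_ne_top _ _)
  · exact h0

end Vale.Agent.P151.Zd
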