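import Vale.Agent.P151.Zd.Lattice

/-!
# Changing one edge: finite energy and the zero-one law for infinite clusters
-/

namespace Vale.Agent.P151.Zd

open MeasureTheory ProbabilityTheory Vale.Agent.P165

variable {V : Type} {G : SimpleGraph V}

open Classical in
/-- The configuration with the state of one edge set to `b`. -/
noncomputable def setEdge (e : G.edgeSet) (b : Bool) (ω : Config G) : Config G :=
  Function.update ω e b

theorem setEdge_self (e : G.edgeSet) (ω : Config G) : setEdge e (ω e) ω = ω := by
  classical
  exact Function.update_eq_self e ω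

theorem measurable_setEdge (e : G.edgeSet) (b : Bool) : Measurable (setEdge (G := G) e b) := by
  classical
  refine measurable_pi_lambda _ fun i => ?_
  by_cases h : i = e
  · subst h
    simp [setEdge]
  · simpa [setEdge, Function.update_of_ne h] using measurable_pi_apply i

theorem measurableSet_edge (e : G.edgeSet) (b : Bool) :
    MeasurableSet {ω : Config G | ω e = b} :=
  (measurableSet_singleton b).preimage (measurable_pi_apply e)

/-- The state of one edge is independent of the others: the joint law factorises. -/
theorem measure_inter_edge (p : unitInterval) (e : G.edgeSet) (b : Bool) {N : Set (Config G)}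
    (hN : MeasurableSet N) :
    perc G p (N ∩ {ω | ω e = b})
      = (bernoulliMeasure true false p) {b} * perc G p (setEdge e b ⁻¹' N) := by
  classical
  set β := bernoulliMeasure true false p with hβ
  set w := β {b} with hw
  set μ := perc G p with hμ
  by_cases hw0 : w = 0
  · rw [hw0, zero_mul]
    refine measure_mono_null Set.inter_subset_right ?_
    have := (measurePreserving_eval_infinitePi (fun _ : G.edgeSet => β) e).measure_preimage
      (measurableSet_singleton b).nullMeasurableSet
    exact this.trans hw0
  have hwtop : w ≠ ⊤ := measure_ne_top _ _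
  set ν : G.edgeSet → Measure Bool := fun i => if i = e then Measure.dirac b else β with hν
  have : ∀ i, IsProbabilityMeasure (ν i) := fun i => by
    simp only [hν]
    split_ifs <;> infer_instance
  have hmap : μ.map (setEdge e b) = Measure.infinitePi ν := by
    let f : G.edgeSet → Bool → Bool := fun i => if i = e then fun _ => b else id
    have hset : setEdge (G := G) e b = fun (ω : Config G) i => f i (ω i) := by
      funext ω i
      by_cases h : i = e
      · subst h; simp [setEdge, f]
      · simp [setEdge, f, h]
    rw [hset, hμ, perc, Measure.infinitePi_map_pi _ fun i => measurable_of_countable (f i)]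
    congr 1
    funext i
    by_cases h : i = e
    · simp [hν, f, h]
    · simp [hν, hβ, f, h]
  have heq : w⁻¹ • μ.restrict {ω | ω e = b} = Measure.infinitePi ν := by
    refine Measure.eq_infinitePi _ fun s t ht => ?_
    have hms : MeasurableSet (Set.pi (s : Set G.edgeSet) t) :=
      MeasurableSet.pi s.countable_toSet fun i _ => ht i
    rw [Measure.smul_apply, Measure.restrict_apply hms, smul_eq_mul]
    let T : G.edgeSet → Set Bool := fun i =>
      if i = e then (if e ∈ s then t e else Set.univ) ∩ {b} else t i
    have hset : Set.pi (s : Set G.edgeSet) t ∩ {ω | ω e = b}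
        = Set.pi ((insert e s : Finset G.edgeSet) : Set G.edgeSet) T := by
      ext ω
      simp only [Set.mem_inter_iff, Set.mem_pi, Finset.mem_coe, Finset.mem_insert,
        Set.mem_ofPred_eq, T]
      constructor
      · rintro ⟨h1, h2⟩ i hi
        by_cases h : i = e
        · subst h
          rw [if_pos rfl]
          refine ⟨?_, h2⟩
          split_ifs with hs
          · exact h1 _ hs
          · trivial
        · rw [if_neg h]
          exact h1 i (hi.resolve_left h)
      · intro h
        have he := h e (Or.inl rfl)
        rw [if_pos rfl] at he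
        refine ⟨fun i hi => ?_, he.2⟩
        by_cases hie : i = e
        · subst hie
          rw [if_pos hi] at he
          exact he.1
        · have := h i (Or.inr hi)
          rwa [if_neg hie] at this
    have hTm : ∀ i, MeasurableSet (T i) := fun _ => Set.toFinite _ |>.measurableSet
    rw [hset, hμ, perc, Measure.infinitePi_pi _ fun i _ => hTm i,
      ← Finset.mul_prod_erase _ _ (Finset.mem_insert_self e s), ← mul_assoc,
      Finset.erase_insert_eq_erase]
    have hrest : ∏ i ∈ s.erase e, β (T i) = ∏ i ∈ s.erase e, ν i (t i) :=
      Finset.prod_congr rfl fun i hi => by simp [T, hν, Finset.ne_of_mem_erase hi]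
    rw [hrest]
    by_cases hes : e ∈ s
    · rw [← Finset.mul_prod_erase s (fun i => ν i (t i)) hes]
      congr 1
      by_cases hb : b ∈ t e
      · have : T e = {b} := by simp [T, hes, hb]
        rw [this, ← hw, ENNReal.inv_mul_cancel hw0 hwtop]
        simp [hν, hb]
      · have : T e = ∅ := by simp [T, hes, hb]
        rw [this]
        simp [hν, hb]
    · have : T e = {b} := by simp [T, hes]
      rw [this, ← hw, ENNReal.inv_mul_cancel hw0 hwtop, one_mul,
        Finset.erase_eq_of_notMem hes]
  have := congrArg (fun m : Measure (Config G) => m N) (heq.trans hmap.symm)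
  simp only [Measure.smul_apply, smul_eq_mul] at this
  rw [Measure.restrict_apply hN, Measure.map_apply (measurable_setEdge e b) hN] at this
  rw [← this, ← mul_assoc, ENNReal.mul_inv_cancel hw0 hwtop, one_mul]

/-- Opening an edge does not make a null event likely. -/
theorem setEdge_open_null (p : unitInterval) (hp : 0 < (p : ℝ)) (e : G.edgeSet)
    {N : Set (Config G)} (hN : MeasurableSet N) (h0 : perc G p N = 0) :
    perc G p (setEdge e true ⁻¹' N) = 0 := by
  have h := measure_inter_edge p e true hN
  rw [measure_mono_null Set.inter_subset_left h0] at h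
  rcases mul_eq_zero.1 h.symm with h' | h'
  · exfalso
    have h'' : (bernoulliMeasure true false p).real {true} = 0 := by
      rw [measureReal_def, h', ENNReal.toReal_zero]
    simp at h''
    simp [h''] at hp
  · exact h'

/-- An event that ignores every single edge has probability zero or one. -/
theorem zero_or_one_of_setEdge (p : unitInterval) {A : Set (Config G)} (hA : MeasurableSet A)
    (hinv : ∀ e b, setEdge e b ⁻¹' A = A) : perc G p A = 0 ∨ perc G p A = 1 := by
  classical
  set β := bernoulliMeasure true false p with hβ
  set μ := perc G p with hμ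
  have key : ∀ (s : Finset G.edgeSet) (t : G.edgeSet → Set Bool),
      μ (A ∩ Set.pi (s : Set G.edgeSet) t) = μ A * ∏ i ∈ s, β (t i) := by
    intro s t
    induction s using Finset.induction with
    | empty => simp
    | @insert e s he ih =>
      rw [Finset.prod_insert he, mul_left_comm, ← ih]
      set B := A ∩ Set.pi (s : Set G.edgeSet) t with hB
      have hBm : MeasurableSet B := hA.inter
        (MeasurableSet.pi s.countable_toSet fun i _ => (Set.toFinite _).measurableSet)
      have hBinv : ∀ b, setEdge e b ⁻¹' B = B := by
        intro b
        rw [hB, Set.preimage_inter, hinv]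
        congr 1
        ext ω
        simp only [Set.mem_preimage, Set.mem_pi, Finset.mem_coe]
        refine forall₂_congr fun i hi => ?_
        rw [setEdge, Function.update_of_ne (fun h : i = e => he (h ▸ hi))]
      have hB' : A ∩ Set.pi ((insert e s : Finset G.edgeSet) : Set G.edgeSet) t
          = B ∩ (fun ω => ω e) ⁻¹' (t e) := by
        rw [Finset.coe_insert, Set.insert_pi, hB]
        ext ω
        simp only [Set.mem_inter_iff, Set.mem_preimage, Function.eval]
        tauto
      have hone : ∀ b, μ (B ∩ (fun ω : Config G => ω e) ⁻¹' {b}) = β {b} * μ B := fun b => by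
        have := measure_inter_edge p e b hBm
        rwa [hBinv b] at this
      rw [hB']
      have hfin := (Set.toFinite (t e))
      have hsum : t e = ⋃ b ∈ hfin.toFinset, ({b} : Set Bool) := by ext b; simp
      rw [hsum, Set.preimage_iUnion₂, Set.inter_iUnion₂, measure_biUnion_finset, measure_biUnion_finset,
        Finset.sum_mul]
      · exact Finset.sum_congr rfl fun b _ => hone b
      · intro a _ b _ hab
        exact Set.disjoint_singleton.2 hab
      · exact fun b _ => measurableSet_singleton b
      · intro a _ b _ hab
        exact Set.disjoint_left.2 fun ω h h' => hab (h.2.symm.trans h'.2)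
      · exact fun b _ => hBm.inter (measurable_pi_apply e (measurableSet_singleton b))
  by_cases h0 : μ A = 0
  · exact Or.inl h0
  refine Or.inr ?_
  have heq : (μ A)⁻¹ • μ.restrict A = μ := by
    refine Measure.eq_infinitePi _ fun s t ht => ?_
    rw [Measure.smul_apply, Measure.restrict_apply
      (MeasurableSet.pi s.countable_toSet fun i _ => ht i), Set.inter_comm, key, smul_eq_mul,
      ← mul_assoc, ENNReal.inv_mul_cancel h0 (measure_ne_top _ _), one_mul]
  have h1 := congrArg (fun m : Measure (Config G) => m A) heq
  simp only [Measure.smul_apply, smul_eq_mul, Measure.restrict_apply hA, Set.inter_self,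
    ENNReal.inv_mul_cancel h0 (measure_ne_top _ _)] at h1
  exact h1.symm

theorem openGraph_mono {ω ω' : Config G} (h : ∀ i, ω i = true → ω' i = true) :
    openGraph G ω ≤ openGraph G ω' := fun _ _ ⟨ha, hw⟩ => ⟨ha, h _ hw⟩

theorem le_setEdge_true (e : G.edgeSet) (ω : Config G) :
    openGraph G ω ≤ openGraph G (setEdge e true ω) := by
  classical
  refine openGraph_mono fun i hi => ?_
  by_cases h : i = e
  · subst h; simp [setEdge]
  · simp [setEdge, Function.update_of_ne h, hi]

/-- After opening an edge, a vertex is joined to what it was joined to, or through an end. -/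
theorem reach_setEdge_cases {e : G.edgeSet} {u v : V} (he : (e : Sym2 V) = s(u, v))
    {ω : Config G} {x z : V} (h : (openGraph G (setEdge e true ω)).Reachable x z) :
    (openGraph G ω).Reachable x z ∨ (openGraph G ω).Reachable u z
      ∨ (openGraph G ω).Reachable v z := by
  classical
  obtain ⟨q⟩ := h
  induction q with
  | nil => exact Or.inl (SimpleGraph.Reachable.refl _)
  | @cons a b c hab _ ih =>
    obtain ⟨hG, hw⟩ := hab
    rcases ih with h1 | h1 | h1
    · by_cases h2 : (⟨s(a, b), hG⟩ : G.edgeSet) = e
      · have h3 : s(a, b) = s(u, v) := by rw [← he, ← h2]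
        rcases Sym2.eq_iff.1 h3 with ⟨-, rfl⟩ | ⟨-, rfl⟩
        · exact Or.inr (Or.inr h1)
        · exact Or.inr (Or.inl h1)
      · rw [setEdge, Function.update_of_ne h2] at hw
        exact Or.inl ((SimpleGraph.Adj.reachable (G := openGraph G ω) ⟨hG, hw⟩).trans h1)
    · exact Or.inr (Or.inl h1)
    · exact Or.inr (Or.inr h1)

/-- Existence of an infinite cluster does not depend on one edge. -/
theorem hasInfinite_setEdge_true (e : G.edgeSet) (ω : Config G) :
    setEdge e true ω ∈ hasInfinite G ↔ ω ∈ hasInfinite G := by
  obtain ⟨u, v, he⟩ : ∃ u v, (e : Sym2 V) = s(u, v) := by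
    generalize (e : Sym2 V) = z
    induction z using Sym2.ind with
    | _ a b => exact ⟨a, b, rfl⟩
  simp only [hasInfinite_eq, Set.mem_iUnion]
  refine ⟨fun ⟨x, hx⟩ => ?_, fun ⟨x, hx⟩ => ⟨x, hx.mono fun z hz => hz.mono (le_setEdge_true e ω)⟩⟩
  by_contra hc
  push Not at hc
  have hfin : ∀ y, {z | (openGraph G ω).Reachable y z}.Finite := fun y => Set.not_infinite.1 (hc y)
  refine hx (((hfin x).union ((hfin u).union (hfin v))).subset fun z hz => ?_)
  rcases reach_setEdge_cases he hz with h | h | h
  · exact Or.inl h
  · exact Or.inr (Or.inl h)
  · exact Or.inr (Or.inr h)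

theorem hasInfinite_setEdge (e : G.edgeSet) (b : Bool) :
    setEdge e b ⁻¹' hasInfinite G = hasInfinite G := by
  classical
  ext ω
  have h1 : setEdge e true (setEdge e b ω) = setEdge e true ω := Function.update_idem ..
  rw [Set.mem_preimage, ← hasInfinite_setEdge_true e (setEdge e b ω), h1,
    hasInfinite_setEdge_true]

/-- The zero-one law: an infinite cluster exists with probability zero or one. -/
theorem hasInfinite_zero_or_one {ι : Type} [Fintype ι] [DecidableEq V] [Countable V]
    {nb : V → ι → V} (hl : Listing G nb) (p : unitInterval) :
    perc G p (hasInfinite G) = 0 ∨ perc G p (hasInfinite G) = 1 := by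
  refine zero_or_one_of_setEdge p ?_ hasInfinite_setEdge
  rw [hasInfinite_eq]
  exact MeasurableSet.iUnion fun y => measurableSet_infAt hl y

end Vale.Agent.P151.Zd
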