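import Vale.Agent.P151.Zd.Unique

/-!
# The lattice is amenable; uniqueness, local uniqueness and boxes meeting the infinite cluster
-/

namespace Vale.Agent.P151.Zd

open MeasureTheory ProbabilityTheory Finset Filter Topology Vale.Agent.P165

/-- Translations of the lattice. -/
noncomputable def translate {d : ℕ} (v : Site d) : zd d ≃g zd d where
  toEquiv := Equiv.addRight v
  map_rel_iff' := by
    intro x y
    simp [zd_adj]

@[simp] theorem translate_apply {d : ℕ} (v x : Site d) : translate v x = x + v := rfl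

theorem zd_quasiTransitive (d : ℕ) : QuasiTransitive (zd d) :=
  ⟨{0}, fun x => ⟨translate (-x), by simp⟩⟩

theorem zd_connected (d : ℕ) : (zd d).Connected := by
  have h : ∀ (n : ℕ) (x : Site d), (∑ i, (x i).natAbs) = n → (zd d).Reachable x 0 := by
    intro n
    induction n with
    | zero =>
      intro x hx
      have : x = 0 := funext fun i => by
        simpa using (Finset.sum_eq_zero_iff.1 hx) i (mem_univ i)
      rw [this]
    | succ n ih =>
      intro x hx
      obtain ⟨i, -, hi⟩ : ∃ i ∈ (univ : Finset (Fin d)), (x i).natAbs ≠ 0 :=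
        Finset.exists_ne_zero_of_sum_ne_zero (by omega)
      set y : Site d := Function.update x i (x i - (x i).sign) with hy
      have hxi : x i ≠ 0 := fun h => hi (by simp [h])
      have hadj : (zd d).Adj x y := by
        rw [zd_adj, Finset.sum_eq_single i]
        · rcases lt_or_gt_of_ne hxi with h | h
          · simp [hy, Int.sign_eq_neg_one_of_neg h]
          · simp [hy, Int.sign_eq_one_of_pos h]
        · intro j _ hj
          simp [hy, Function.update_of_ne hj]
        · simp
      refine hadj.reachable.trans (ih y ?_)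
      rw [← Finset.add_sum_erase _ _ (mem_univ i)] at hx ⊢
      have hrest : ∑ j ∈ univ.erase i, (y j).natAbs = ∑ j ∈ univ.erase i, (x j).natAbs :=
        Finset.sum_congr rfl fun j hj => by simp [hy, Function.update_of_ne (ne_of_mem_erase hj)]
      rw [hrest]
      have : (y i).natAbs + 1 = (x i).natAbs := by
        rcases lt_or_gt_of_ne hxi with h | h
        · simp [hy, Int.sign_eq_neg_one_of_neg h]; omega
        · simp [hy, Int.sign_eq_one_of_pos h]; omega
      omega
  exact (SimpleGraph.connected_iff _).2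
    ⟨fun x y => (h _ x rfl).trans (h _ y rfl).symm, inferInstance⟩

theorem card_box (d n : ℕ) : (box d n).card = (2 * n + 1) ^ d := by
  simp only [box, Fintype.card_piFinset, Int.card_Icc, prod_const, card_univ, Fintype.card_fin]
  congr 1
  omega

theorem boundary_box_subset (d n : ℕ) :
    bd (step d) (box d n) ⊆ box d (n + 1) \ box d n := by
  intro v hv
  obtain ⟨hv1, hv2⟩ := mem_sdiff.1 hv
  obtain ⟨⟨x, a⟩, hxa, rfl⟩ := mem_image.1 hv1
  refine mem_sdiff.2 ⟨mem_box.2 fun i => ?_, hv2⟩
  have hx := mem_box.1 (mem_product.1 hxa).1 i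
  have hu : |unit a i| ≤ 1 := by
    by_cases h : i = a.1
    · subst h
      cases hs : a.2 <;> simp [unit, hs]
    · simp [unit, h]
  show |x i + unit a i| ≤ ((n + 1 : ℕ) : ℤ)
  push_cast
  exact (abs_add_le _ _).trans (by linarith)

theorem zd_amenable (d : ℕ) : Amenable (zd d) := by
  intro ε hε
  have hlim : Tendsto (fun n : ℕ => (1 + 2 / (2 * (n : ℝ) + 1)) ^ d) atTop (𝓝 1) := by
    have h0 : Tendsto (fun n : ℕ => (2 : ℝ) / (2 * (n : ℝ) + 1)) atTop (𝓝 0) := by
      refine Tendsto.div_atTop tendsto_const_nhds ?_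
      exact tendsto_atTop_add_const_right _ _
        (tendsto_natCast_atTop_atTop.const_mul_atTop two_pos)
    simpa using ((h0.const_add 1).pow d)
  obtain ⟨n, hn⟩ := (hlim.eventually (gt_mem_nhds (by linarith : (1 : ℝ) < 1 + ε))).exists
  refine ⟨box d n, ⟨0, mem_box.2 fun i => by simp⟩, ?_⟩
  rw [← coe_bd (step_labelling d).listing, Set.ncard_coe_finset]
  have h1 := card_le_card (boundary_box_subset d n)
  rw [card_sdiff_of_subset (box_mono d (Nat.le_succ n)), card_box, card_box] at h1
  have h2 : ((bd (step d) (box d n)).card : ℝ)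
      ≤ (2 * (n : ℝ) + 3) ^ d - (2 * (n : ℝ) + 1) ^ d := by
    refine (Nat.cast_le.2 h1).trans ?_
    rw [Nat.cast_sub (Nat.pow_le_pow_left (by omega) d)]
    push_cast
    ring_nf
    exact le_rfl
  have h3 : (2 * (n : ℝ) + 3) ^ d
      = (2 * (n : ℝ) + 1) ^ d * (1 + 2 / (2 * (n : ℝ) + 1)) ^ d := by
    rw [← mul_pow]
    congr 1
    field_simp
    ring
  rw [card_box]
  push_cast
  have h4 := mul_le_mul_of_nonneg_left hn.le (by positivity : (0 : ℝ) ≤ (2 * (n : ℝ) + 1) ^ d)
  linarith

/-- Uniqueness of the infinite cluster on the lattice, at every parameter. -/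
theorem zd_unique (d : ℕ) (p : unitInterval) : perc (zd d) p (twoInfinite (zd d)) = 0 :=
  twoInfinite_null (step_labelling d).listing (zd_connected d) (zd_quasiTransitive d) (zd_amenable d) p

section Local

variable {V ι : Type} [DecidableEq V] [Fintype ι] {G : SimpleGraph V} {nb : V → ι → V}

open Classical in
theorem measurableSet_reachWithin (hl : Listing G nb) (Λ : Set V) (x y : V) :
    MeasurableSet (reachWithin G Λ x y) := by
  have hset : reachWithin G Λ x y = ⋃ n, ⋃ e ∈ (univ.filter fun e : Fin n → ι =>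
      endV nb n e x = y ∧ x ∈ Λ ∧ ∀ f ∈ edgesV nb n e x, ∀ z ∈ f, z ∈ Λ),
      openOn G (edgesV nb n e x) := by
    ext ω
    simp only [Set.mem_iUnion, mem_filter, mem_univ, true_and, exists_prop]
    constructor
    · rintro ⟨w, hw⟩
      induction w with
      | nil =>
        exact ⟨0, Fin.elim0, ⟨rfl, hw _ (by simp), fun f hf => by simp [edgesV] at hf⟩,
          fun e he => by simp [edgesV] at he⟩
      | @cons a b c hab q ih =>
        obtain ⟨n, e, ⟨hend, hbΛ, hin⟩, ho⟩ :=
          ih (fun z hz => hw z (List.mem_cons_of_mem _ hz))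
        obtain ⟨hG, hopen⟩ := hab
        obtain ⟨i, rfl⟩ := (hl.adj a b).1 hG
        refine ⟨n + 1, Fin.cons i e, ⟨?_, hw a (by simp), ?_⟩, ?_⟩
        · simp [endV, hend]
        · intro f hf z hz
          simp only [edgesV, Fin.cons_zero, Fin.tail_cons, mem_insert] at hf
          rcases hf with rfl | hf
          · rcases Sym2.mem_iff.1 hz with rfl | rfl
            · exact hw _ (by simp)
            · exact hbΛ
          · exact hin f hf z hz
        · intro f hf
          simp only [edgesV, Fin.cons_zero, Fin.tail_cons, mem_insert] at hf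
          rcases hf with h | h
          · have : f = ⟨s(a, nb a i), hG⟩ := Subtype.ext h
            rw [this]; exact hopen
          · exact ho f h
    · rintro ⟨n, e, ⟨hend, hx, hin⟩, ho⟩
      subst hend
      induction n generalizing x with
      | zero => exact ⟨SimpleGraph.Walk.nil, fun z hz => List.mem_singleton.1 hz ▸ hx⟩
      | succ n ih =>
        have hG := hl.adj_nb x (e 0)
        have hb : nb x (e 0) ∈ Λ :=
          hin s(x, nb x (e 0)) (by simp [edgesV]) _ (Sym2.mem_mk_right _ _)
        obtain ⟨w, hw⟩ := ih (x := nb x (e 0)) (Fin.tail e)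
          (fun f hf => ho f (by simp [edgesV, hf])) hb (fun f hf => hin f (by simp [edgesV, hf]))
        refine ⟨SimpleGraph.Walk.cons (show (openGraph G ω).Adj x (nb x (e 0)) from
          ⟨hG, ho ⟨_, hG⟩ (by simp [edgesV])⟩) w, fun z hz => ?_⟩
        rcases List.mem_cons.1 hz with rfl | h
        · exact hx
        · exact hw z h
  rw [hset]
  exact MeasurableSet.iUnion fun n =>
    MeasurableSet.biUnion (Finset.countable_toSet _) fun e _ => measurableSet_openOn _

omit [DecidableEq V] [Fintype ι] in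
theorem arm_eq (Λ : Set V) (x : V) : arm G Λ x = ⋃ z, ⋃ _ : z ∉ Λ, reach G x z := by
  ext ω
  simp [arm, reach]

theorem measurableSet_splitArms [Countable V] (hl : Listing G nb) (K Λ : Set V) :
    MeasurableSet (splitArms G K Λ) := by
  have : splitArms G K Λ = ⋃ x, ⋃ _ : x ∈ K, ⋃ y, ⋃ _ : y ∈ K,
      (arm G Λ x ∩ arm G Λ y) \ reachWithin G Λ x y := by
    ext ω
    simp only [splitArms, Set.mem_iUnion, Set.mem_sdiff, Set.mem_inter_iff, Set.mem_ofPred_eq,
      exists_prop, and_assoc]
  rw [this]
  have harm : ∀ x, MeasurableSet (arm G Λ x) := fun x => by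
    rw [arm_eq]
    exact MeasurableSet.iUnion fun z => MeasurableSet.iUnion fun _ => measurableSet_reach hl x z
  exact MeasurableSet.iUnion fun x => MeasurableSet.iUnion fun _ => MeasurableSet.iUnion fun y =>
    MeasurableSet.iUnion fun _ =>
      ((harm x).inter (harm y)).diff (measurableSet_reachWithin hl Λ x y)

/-- Local uniqueness: two points of a fixed finite set that reach far away are joined nearby. -/
theorem splitArms_tendsto [Countable V] (hl : Listing G nb) (p : unitInterval)
    (hu : perc G p (twoInfinite G) = 0) (K : Finset V) (Λ : ℕ → Finset V) (hmono : Monotone Λ)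
    (hcover : ∀ v, ∃ n, v ∈ Λ n) :
    Tendsto (fun M => perc G p (splitArms G ↑K ↑(Λ M))) atTop (𝓝 0) := by
  set μ := perc G p
  have hpair : ∀ x y : V, Tendsto (fun M => μ ((arm G (↑(Λ M)) x ∩ arm G (↑(Λ M)) y)
      \ reachWithin G (↑(Λ M)) x y)) atTop (𝓝 0) := by
    intro x y
    set F : ℕ → Set (Config G) := fun M =>
      (arm G (↑(Λ M)) x ∩ arm G (↑(Λ M)) y) \ reachWithin G (↑(Λ M)) x y
    have hanti : Antitone F := by
      intro a b hab ω
      rintro ⟨⟨⟨z, hz, hxz⟩, ⟨z', hz', hyz⟩⟩, hr⟩
      refine ⟨⟨⟨z, fun h => hz (hmono hab h), hxz⟩, ⟨z', fun h => hz' (hmono hab h), hyz⟩⟩,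
        fun ⟨w, hw⟩ => hr ⟨w, fun v hv => hmono hab (hw v hv)⟩⟩
    have hmeas : ∀ M, MeasurableSet (F M) := fun M => by
      have harm : ∀ v, MeasurableSet (arm G (↑(Λ M)) v) := fun v => by
        rw [arm_eq]
        exact MeasurableSet.iUnion fun z =>
          MeasurableSet.iUnion fun _ => measurableSet_reach hl v z
      exact ((harm x).inter (harm y)).diff (measurableSet_reachWithin hl _ x y)
    have h := tendsto_measure_iInter_atTop (μ := μ) (fun M => (hmeas M).nullMeasurableSet) hanti
      ⟨0, measure_ne_top _ _⟩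
    have h0 : μ (⋂ M, F M) = 0 := by
      refine measure_mono_null (fun ω hω => ?_) hu
      rw [Set.mem_iInter] at hω
      have hinf : ∀ v, (∀ M, ω ∈ arm G (↑(Λ M)) v) → ω ∈ infAt G v := by
        intro v hv hfin
        choose N hN using hcover
        obtain ⟨z, hz, hvz⟩ := hv (hfin.toFinset.sup N)
        exact hz (hmono (Finset.le_sup (f := N) (hfin.mem_toFinset.2 hvz)) (hN z))
      refine Set.mem_iUnion₂.2 ⟨x, y, ⟨hinf x fun M => (hω M).1.1, hinf y fun M => (hω M).1.2⟩,
        fun hr => ?_⟩
      classical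
      obtain ⟨w⟩ := hr
      choose N hN using hcover
      exact (hω (w.support.toFinset.sup N)).2
        ⟨w, fun v hv => hmono (Finset.le_sup (f := N) (List.mem_toFinset.2 hv)) (hN v)⟩
    rwa [h0] at h
  have hsub : ∀ M, μ (splitArms G ↑K ↑(Λ M)) ≤ ∑ q ∈ K ×ˢ K,
      μ ((arm G (↑(Λ M)) q.1 ∩ arm G (↑(Λ M)) q.2) \ reachWithin G (↑(Λ M)) q.1 q.2) := by
    intro M
    refine le_trans (measure_mono ?_) (measure_biUnion_finset_le (K ×ˢ K) _)
    rintro ω ⟨x, hx, y, hy, h1, h2, h3⟩
    exact Set.mem_iUnion₂.2 ⟨(x, y), mem_product.2 ⟨hx, hy⟩, ⟨h1, h2⟩, h3⟩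
  refine tendsto_of_tendsto_of_tendsto_of_le_of_le tendsto_const_nhds ?_ (fun _ => bot_le) hsub
  simpa using tendsto_finsetSum (K ×ˢ K) fun q _ => hpair q.1 q.2

end Local

theorem exists_box_mem {d : ℕ} (v : Site d) : ∃ n, v ∈ box d n :=
  ⟨univ.sup fun i => (v i).natAbs, mem_box.2 fun i => by
    rw [Int.abs_eq_natAbs]
    exact_mod_cast Finset.le_sup (f := fun i => (v i).natAbs) (mem_univ i)⟩

/-- Local uniqueness on the lattice. -/
theorem zd_local_uniqueness (d : ℕ) (p : unitInterval) (n : ℕ) {ε : ℝ} (hε : 0 < ε) :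
    ∃ M₀, ∀ M ≥ M₀,
      (perc (zd d) p).real (splitArms (zd d) ↑(box d n) ↑(box d M)) ≤ ε := by
  have h := splitArms_tendsto (step_labelling d).listing p (zd_unique d p) (box d n) (box d)
    (fun a b hab => box_mono d hab) exists_box_mem
  obtain ⟨M₀, hM₀⟩ := eventually_atTop.1
    (h.eventually (eventually_le_nhds (ENNReal.ofReal_pos.2 hε)))
  exact ⟨M₀, fun M hM => ENNReal.toReal_le_of_le_ofReal hε.le (hM₀ M hM)⟩

/-- If the origin percolates with positive probability then large boxes meet the infinite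
cluster with probability close to one. -/
theorem zd_box_hits (d : ℕ) (p : unitInterval) (hθ : 0 < perc (zd d) p (infAt (zd d) 0))
    {ε : ℝ} (hε : 0 < ε) :
    ∃ n₀, ∀ n ≥ n₀, 1 - ε ≤ (perc (zd d) p).real (⋃ x ∈ box d n, infAt (zd d) x) := by
  set μ := perc (zd d) p
  have h1 : μ (hasInfinite (zd d)) = 1 := by
    refine (hasInfinite_zero_or_one (step_labelling d).listing p).resolve_left fun h => hθ.ne' ?_
    refine measure_mono_null ?_ h
    rw [hasInfinite_eq]
    exact Set.subset_iUnion (fun y => infAt (zd d) y) 0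
  have hmono : Monotone fun n => ⋃ x ∈ box d n, infAt (zd d) x := fun a b hab =>
    Set.biUnion_subset_biUnion_left fun x hx => box_mono d hab hx
  have h := tendsto_measure_iUnion_atTop (μ := μ) hmono
  have hU : (⋃ n, ⋃ x ∈ box d n, infAt (zd d) x) = hasInfinite (zd d) := by
    rw [hasInfinite_eq]
    ext ω
    simp only [Set.mem_iUnion, exists_prop]
    exact ⟨fun ⟨_, x, _, h⟩ => ⟨x, h⟩,
      fun ⟨x, h⟩ => let ⟨n, hn⟩ := exists_box_mem x; ⟨n, x, hn, h⟩⟩
  rw [hU, h1] at h
  have h' := (ENNReal.tendsto_toReal ENNReal.one_ne_top).comp h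
  obtain ⟨n₀, hn₀⟩ := eventually_atTop.1
    (h'.eventually (eventually_ge_nhds (by simp [hε] : 1 - ε < (1 : ENNReal).toReal)))
  exact ⟨n₀, fun n hn => hn₀ n hn⟩

end Vale.Agent.P151.Zd
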