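import Vale.Agent.P151.Avg

/-!
# Edges between two distinct boundary clusters in a finite region

For a finite edge set and a set `S` of vertices, the closed edges whose ends lie in two
distinct clusters meeting `S` have small density once `S` is small compared with the edge set.
The proof is the Aizenman-Kesten-Newman identity, with the large deviations of each cluster
controlled by an exact change of the parameter.
-/

namespace Vale.Agent.P151.Zd

open Finset Real Vale.Agent.P165 Vale.Agent.P151

variable {V : Type} [DecidableEq V]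

/-- The edges of `E` touching the vertex set `C`. -/
def rim (E : Finset (Sym2 V)) (C : Finset V) : Finset (Sym2 V) :=
  E.filter fun e => ∃ v ∈ C, v ∈ e

/-- `u` is joined to `S`. -/
def hit (S : Finset V) (η : Finset (Sym2 V)) (u : V) : Prop := ∃ v ∈ S, cl η u v

open Classical in
/-- The weight of `v` among the points of `S` in its cluster. -/
noncomputable def share (S : Finset V) (η : Finset (Sym2 V)) (v : V) : ℝ :=
  1 / (((cls η v) ∩ S).card : ℝ)

/-- The number of distinct clusters meeting `S` that touch an edge, counted by shares. -/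
noncomputable def touching (S : Finset V) (η : Finset (Sym2 V)) (e : Sym2 V) : ℝ :=
  ∑ v ∈ S, share S η v * ind (∃ u ∈ cls η v, u ∈ e)

/-- The edge is closed and its ends lie in two distinct clusters meeting `S`. -/
def closedTwo (S : Finset V) (η : Finset (Sym2 V)) (e : Sym2 V) : Prop :=
  e ∉ η ∧ ∃ u w, e = s(u, w) ∧ hit S η u ∧ hit S η w ∧ ¬cl η u w

/-- The cluster of `v` only depends on the edges touching it. -/
theorem cls_local {E η η' : Finset (Sym2 V)} (hη : η ⊆ E) (hη' : η' ⊆ E) {v : V}
    (h : η' ∩ rim E (cls η v) = η ∩ rim E (cls η v)) : cls η' v = cls η v := by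
  have hkeep : ∀ a b, a ∈ cls η v → s(a, b) ∈ E → (s(a, b) ∈ η' ↔ s(a, b) ∈ η) := by
    intro a b ha hab
    have hr : s(a, b) ∈ rim E (cls η v) := mem_filter.2 ⟨hab, a, ha, Sym2.mem_mk_left _ _⟩
    have h' := Finset.ext_iff.1 h s(a, b)
    simpa [hr] using h'
  have h1 : ∀ a c, (SimpleGraph.fromEdgeSet (η : Set (Sym2 V))).Walk a c →
      a ∈ cls η v → cl η' a c := by
    intro a c w
    induction w with
    | nil => exact fun _ => SimpleGraph.Reachable.refl _
    | @cons a b c hab _ ih =>
      intro ha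
      obtain ⟨he, hne⟩ := (SimpleGraph.fromEdgeSet_adj _).1 hab
      refine (cl_edge hne ((hkeep a b ha (hη he)).2 he)).trans (ih ?_)
      exact mem_cls.2 ((mem_cls.1 ha).trans (cl_edge hne he))
  have h2 : ∀ a c, (SimpleGraph.fromEdgeSet (η' : Set (Sym2 V))).Walk a c →
      a ∈ cls η v → c ∈ cls η v := by
    intro a c w
    induction w with
    | nil => exact id
    | @cons a b c hab _ ih =>
      intro ha
      obtain ⟨he, hne⟩ := (SimpleGraph.fromEdgeSet_adj _).1 hab
      exact ih (mem_cls.2 ((mem_cls.1 ha).trans (cl_edge hne ((hkeep a b ha (hη' he)).1 he))))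
  refine Subset.antisymm (fun c hc => ?_) (fun c hc => ?_)
  · obtain ⟨w⟩ := mem_cls.1 hc
    exact h2 v c w (self_mem_cls η v)
  · obtain ⟨w⟩ := mem_cls.1 hc
    exact mem_cls.2 (h1 v c w (self_mem_cls η v))

/-- Tilting the edges of one cluster is a change of parameter. -/
theorem tilt_eq_one (E : Finset (Sym2 V)) (v : V) {p a b : ℝ}
    (hm : p * a + (1 - p) * b ≠ 0) :
    avg E p (fun η => a ^ (η ∩ rim E (cls η v)).card
      * b ^ ((rim E (cls η v)).card - (η ∩ rim E (cls η v)).card)
      / (p * a + (1 - p) * b) ^ (rim E (cls η v)).card) = 1 := by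
  classical
  set m := p * a + (1 - p) * b
  set q := p * a / m with hq
  let key : Finset (Sym2 V) → Finset V × Finset (Sym2 V) := fun η =>
    (cls η v, η ∩ rim E (cls η v))
  have hfib : ∀ η₀, η₀ ⊆ E → ∀ r : ℝ,
      ∑ η ∈ E.powerset.filter (fun η => key η = key η₀), wt E r η
        = wt (rim E (cls η₀ v)) r (η₀ ∩ rim E (cls η₀ v)) := by
    intro η₀ hη₀ r
    set T := rim E (cls η₀ v)
    have hT : T ⊆ E := filter_subset _ _
    have hiff : ∀ η, η ⊆ E → (key η = key η₀ ↔ η ∩ T = η₀ ∩ T) := by
      intro η hη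
      constructor
      · intro h
        simp only [key, Prod.mk.injEq] at h
        have h2 := h.2
        rw [h.1] at h2
        exact h2
      · intro h
        have hC := cls_local hη₀ hη h
        simp only [key, hC]
        exact Prod.ext rfl h
    have h1 : avg E r (fun η => (if η ∩ T = η₀ ∩ T then (1 : ℝ) else 0))
        = wt T r (η₀ ∩ T) := by
      rw [avg_restrict hT r (fun x => if x = η₀ ∩ T then (1 : ℝ) else 0), avg,
        sum_eq_single (η₀ ∩ T) (fun x _ hx => by rw [if_neg hx, mul_zero])
          (fun h => absurd (mem_powerset.2 inter_subset_right) h), if_pos rfl, mul_one]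
    rw [← h1, avg, sum_filter]
    refine sum_congr rfl fun η hη => ?_
    simp only [hiff η (mem_powerset.1 hη), mul_ite, mul_one, mul_zero]
  let F : Finset V × Finset (Sym2 V) → ℝ := fun k =>
    a ^ k.2.card * b ^ ((rim E k.1).card - k.2.card) / m ^ (rim E k.1).card
  have hq' : (1 : ℝ) - q = (1 - p) * b / m := by
    rw [hq, eq_div_iff hm, sub_mul, div_mul_cancel₀ _ hm, one_mul]
    ring
  have hL : ∀ g : ℝ, ∀ G : Finset V × Finset (Sym2 V) → ℝ,
      avg E g (fun η => G (key η)) = ∑ k ∈ E.powerset.image key,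
        (∑ η ∈ E.powerset.filter (fun η => key η = k), wt E g η) * G k := by
    intro g G
    rw [avg, ← sum_fiberwise_of_maps_to (g := key) (t := E.powerset.image key)
      (fun η hη => mem_image_of_mem key hη)]
    refine sum_congr rfl fun k _ => ?_
    rw [sum_mul]
    exact sum_congr rfl fun η hη => by rw [(mem_filter.1 hη).2]
  refine (hL p F).trans (Eq.trans ?_ ((hL q fun _ => 1).symm.trans (avg_one E q)))
  refine sum_congr rfl fun k hk => ?_
  obtain ⟨η₀, hη₀, rfl⟩ := mem_image.1 hk
  rw [hfib η₀ (mem_powerset.1 hη₀), hfib η₀ (mem_powerset.1 hη₀), mul_one]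
  set T := rim E (cls η₀ v) with hT
  set o := (η₀ ∩ T).card with ho
  have hoT : o ≤ T.card := card_le_card inter_subset_right
  simp only [F, key, wt, ← hT, ← ho]
  conv_rhs => rw [hq, ← hq, hq', hq, div_pow, div_pow]
  have hsplit : m ^ T.card = m ^ o * m ^ (T.card - o) := by
    rw [← pow_add, Nat.add_sub_cancel' hoT]
  rw [hsplit, mul_pow, mul_pow]
  field_simp

/-- The exponential moment of the surplus of closed edges around one cluster. -/
theorem surplus_exp (E : Finset (Sym2 V)) (v : V) {p t : ℝ} (h0 : 0 ≤ p) (h1 : p ≤ 1)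
    (ht : |t| ≤ 1) :
    avg E p (fun η => Real.exp (t * (p * ((rim E (cls η v)).card : ℝ)
        - ((η ∩ rim E (cls η v)).card : ℝ)) - t ^ 2 * (rim E (cls η v)).card)) ≤ 1 := by
  set a := Real.exp (-t * (1 - p)) with ha
  set b := Real.exp (t * p) with hb
  set m := p * a + (1 - p) * b with hm
  have hm0 : 0 < m := by
    rcases h0.eq_or_lt with h | h
    · rw [hm, ← h]
      simp only [zero_mul, sub_zero, one_mul, zero_add]
      exact exp_pos _
    · exact add_pos_of_pos_of_nonneg (mul_pos h (exp_pos _))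
        (mul_nonneg (by linarith) (exp_pos _).le)
  have hp' : 0 ≤ 1 - p := by linarith
  have hmt : m ≤ Real.exp (t ^ 2) := by
    have hx : |(-t * (1 - p))| ≤ 1 := by
      rw [abs_mul, abs_neg, abs_of_nonneg hp']
      nlinarith [abs_nonneg t]
    have hy : |t * p| ≤ 1 := by
      rw [abs_mul, abs_of_nonneg h0]
      nlinarith [abs_nonneg t]
    have e1 := (abs_le.1 (Real.abs_exp_sub_one_sub_id_le hx)).2
    have e2 := (abs_le.1 (Real.abs_exp_sub_one_sub_id_le hy)).2
    have f1 := mul_le_mul_of_nonneg_left e1 h0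
    have f2 := mul_le_mul_of_nonneg_left e2 hp'
    have hpp : p * (1 - p) ≤ 1 := by nlinarith
    have f3 : p * (-t * (1 - p)) ^ 2 + (1 - p) * (t * p) ^ 2 ≤ t ^ 2 := by
      have : p * (-t * (1 - p)) ^ 2 + (1 - p) * (t * p) ^ 2 = p * (1 - p) * t ^ 2 := by ring
      rw [this]
      exact mul_le_of_le_one_left (sq_nonneg t) hpp
    refine le_trans ?_ (Real.add_one_le_exp (t ^ 2))
    rw [hm, ha, hb]
    nlinarith
  refine le_trans (avg_mono E h0 h1 fun η _ => ?_) (tilt_eq_one E v hm0.ne').le
  set T := rim E (cls η v) with hT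
  set o := (η ∩ T).card with ho
  have hoT : o ≤ T.card := card_le_card inter_subset_right
  have hnum : Real.exp (t * (p * (T.card : ℝ) - (o : ℝ))) = a ^ o * b ^ (T.card - o) := by
    rw [ha, hb, ← exp_nat_mul, ← exp_nat_mul, ← exp_add, Nat.cast_sub hoT]
    congr 1
    ring
  rw [exp_sub, hnum, mul_comm (t ^ 2), exp_nat_mul]
  exact div_le_div_of_nonneg_left (mul_nonneg (pow_nonneg (exp_pos _).le _)
    (pow_nonneg (exp_pos _).le _)) (pow_pos hm0 _) (pow_le_pow_left₀ hm0.le hmt _)

omit [DecidableEq V] in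
theorem hit_of_cl {S : Finset V} {η : Finset (Sym2 V)} {u w : V} (h : cl η u w) :
    hit S η u ↔ hit S η w :=
  ⟨fun ⟨v, hv, hc⟩ => ⟨v, hv, h.symm.trans hc⟩, fun ⟨v, hv, hc⟩ => ⟨v, hv, h.trans hc⟩⟩

theorem share_le_one (S : Finset V) (η : Finset (Sym2 V)) {v : V} (hv : v ∈ S) :
    0 ≤ share S η v ∧ share S η v ≤ 1 := by
  classical
  unfold share
  refine ⟨by positivity, ?_⟩
  have h : 1 ≤ ((cls η v) ∩ S).card :=
    card_pos.2 ⟨v, mem_inter.2 ⟨self_mem_cls η v, hv⟩⟩
  rw [div_le_one (by exact_mod_cast h)]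
  exact_mod_cast h

/-- The shares in one cluster add up to one. -/
theorem sum_share (S : Finset V) (η : Finset (Sym2 V)) (u : V) :
    ∑ v ∈ S, share S η v * ind (cl η u v) = ind (hit S η u) := by
  classical
  by_cases h : hit S η u
  · obtain ⟨v₀, hv₀, hc₀⟩ := h
    have hh : hit S η u := ⟨v₀, hv₀, hc₀⟩
    rw [ind_true hh]
    have hn : 0 < ((cls η u) ∩ S).card := card_pos.2 ⟨v₀, mem_inter.2 ⟨mem_cls.2 hc₀, hv₀⟩⟩
    have hterm : ∀ v ∈ S, share S η v * ind (cl η u v)
        = if v ∈ cls η u then 1 / (((cls η u) ∩ S).card : ℝ) else 0 := by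
      intro v _
      by_cases hc : cl η u v
      · rw [ind_true hc, mul_one, if_pos (mem_cls.2 hc), share, cls_eq hc]
      · rw [ind_false hc, mul_zero, if_neg fun h' => hc (mem_cls.1 h')]
    rw [sum_congr rfl hterm, sum_ite_mem, sum_const, nsmul_eq_mul, inter_comm S]
    field_simp
  · rw [ind_false h]
    exact sum_eq_zero fun v hv => by rw [ind_false fun hc => h ⟨v, hv, hc⟩, mul_zero]

theorem touching_mk (S : Finset V) (η : Finset (Sym2 V)) (u w : V) :
    touching S η s(u, w) = ind (hit S η u) + ind (hit S η w)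
      - ind (cl η u w) * ind (hit S η u) := by
  rw [touching, ← sum_share S η u, ← sum_share S η w, mul_sum, ← sum_add_distrib,
    ← sum_sub_distrib]
  refine sum_congr rfl fun v _ => ?_
  have hiff : (∃ x ∈ cls η v, x ∈ s(u, w)) ↔ cl η u v ∨ cl η w v := by
    constructor
    · rintro ⟨x, hx, hxe⟩
      rcases Sym2.mem_iff.1 hxe with rfl | rfl
      · exact Or.inl (mem_cls.1 hx).symm
      · exact Or.inr (mem_cls.1 hx).symm
    · rintro (h | h)
      · exact ⟨u, mem_cls.2 h.symm, Sym2.mem_mk_left _ _⟩
      · exact ⟨w, mem_cls.2 h.symm, Sym2.mem_mk_right _ _⟩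
  rw [ind_congr hiff]
  by_cases hu : cl η u v <;> by_cases hw : cl η w v
  · rw [ind_true (Or.inl hu), ind_true hu, ind_true hw, ind_true (show cl η u w from hu.trans hw.symm)]; ring
  · rw [ind_true (Or.inl hu), ind_true hu, ind_false hw,
      ind_false fun h : cl η u w => hw (h.symm.trans hu)]; ring
  · rw [ind_true (Or.inr hw), ind_false hu, ind_true hw]; ring
  · rw [ind_false (not_or.2 ⟨hu, hw⟩), ind_false hu, ind_false hw]; ring

theorem cl_insert_cases {η : Finset (Sym2 V)} {u w : V} :
    ∀ {x z : V}, cl (insert s(u, w) η) x z → cl η x z ∨ cl η u z ∨ cl η w z := by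
  intro x z h
  obtain ⟨q⟩ := h
  induction q with
  | nil => exact Or.inl (SimpleGraph.Reachable.refl _)
  | @cons a b c hab _ ih =>
    obtain ⟨he, hne⟩ := (SimpleGraph.fromEdgeSet_adj _).1 hab
    rcases ih with h1 | h1 | h1
    · rcases mem_insert.1 (mem_coe.1 he) with h2 | h2
      · rcases Sym2.eq_iff.1 h2 with ⟨-, rfl⟩ | ⟨-, rfl⟩
        · exact Or.inr (Or.inr h1)
        · exact Or.inr (Or.inl h1)
      · exact Or.inl ((cl_edge hne h2).trans h1)
    · exact Or.inr (Or.inl h1)
    · exact Or.inr (Or.inr h1)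

/-- Opening an edge merges exactly the two clusters at its ends. -/
theorem touching_drop (S : Finset V) {η : Finset (Sym2 V)} {e : Sym2 V} (hd : ¬e.IsDiag)
    (he : e ∉ η) :
    touching S η e - touching S (insert e η) e = ind (closedTwo S η e) := by
  induction e using Sym2.ind with
  | _ u w =>
    have hne : u ≠ w := fun h => hd (Sym2.mk_isDiag_iff.2 h)
    have hc : cl (insert s(u, w) η) u w := cl_edge hne (mem_insert_self _ _)
    have hh : hit S (insert s(u, w) η) u ↔ hit S η u ∨ hit S η w := by
      constructor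
      · rintro ⟨v, hv, h⟩
        rcases cl_insert_cases h with h | h | h
        · exact Or.inl ⟨v, hv, h⟩
        · exact Or.inl ⟨v, hv, h⟩
        · exact Or.inr ⟨v, hv, h⟩
      · rintro (⟨v, hv, h⟩ | ⟨v, hv, h⟩)
        · exact ⟨v, hv, cl_mono (subset_insert _ _) h⟩
        · exact ⟨v, hv, hc.trans (cl_mono (subset_insert _ _) h)⟩
    have htwo : closedTwo S η s(u, w) ↔ hit S η u ∧ hit S η w ∧ ¬cl η u w := by
      refine ⟨?_, fun h => ⟨he, u, w, rfl, h⟩⟩
      rintro ⟨-, u', w', heq, h1, h2, h3⟩
      rcases Sym2.eq_iff.1 heq with ⟨rfl, rfl⟩ | ⟨rfl, rfl⟩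
      · exact ⟨h1, h2, h3⟩
      · exact ⟨h2, h1, fun h => h3 h.symm⟩
    rw [touching_mk, touching_mk, ind_congr htwo, ind_true hc, ind_congr (hit_of_cl hc).symm,
      ind_congr hh]
    by_cases hcl : cl η u w
    · rw [ind_true hcl, ind_false fun h : hit S η u ∧ hit S η w ∧ ¬cl η u w => h.2.2 hcl,
        ind_congr (hit_of_cl hcl).symm]
      by_cases hu : hit S η u
      · rw [ind_true hu, ind_true (Or.inl hu)]; ring
      · rw [ind_false hu, ind_false (not_or.2 ⟨hu, fun h => hu ((hit_of_cl hcl).2 h)⟩)]; ring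
    · rw [ind_false hcl]
      by_cases hu : hit S η u <;> by_cases hw : hit S η w <;>
        simp [ind, hu, hw, hcl]

theorem touching_le_two (S : Finset V) (η : Finset (Sym2 V)) (e : Sym2 V) :
    touching S η e ≤ 2 := by
  induction e using Sym2.ind with
  | _ u w =>
    rw [touching_mk]
    have := ind_le_one (hit S η u)
    have := ind_le_one (hit S η w)
    have := mul_nonneg (ind_nonneg (cl η u w)) (ind_nonneg (hit S η u))
    linarith

/-- Bound on the expected number of closed edges joining two distinct clusters that meet `S`. -/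
theorem sum_closedTwo_le (E : Finset (Sym2 V)) (hE : ∀ e ∈ E, ¬e.IsDiag) (S : Finset V)
    {p t : ℝ} (h0 : 0 ≤ p) (h1 : p ≤ 1) (ht : 0 < t) (ht1 : t ≤ 1) :
    p * ∑ e ∈ E, avg E p (fun η => ind (closedTwo S η e))
      ≤ 2 * t * E.card + (S.card : ℝ) / t := by
  classical
  set X : V → Finset (Sym2 V) → ℝ := fun v η =>
    p * ((rim E (cls η v)).card : ℝ) - ((η ∩ rim E (cls η v)).card : ℝ) with hX
  have hexp : ∀ v ∈ S, t * avg E p (fun η => share S η v * X v η)
      ≤ t ^ 2 * avg E p (fun η => share S η v * (rim E (cls η v)).card) + 1 := by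
    intro v hv
    rw [← avg_mul, ← avg_mul]
    refine le_trans ?_ (add_le_add le_rfl
      (surplus_exp E v h0 h1 (t := t) (by rw [abs_of_pos ht]; exact ht1)))
    rw [← avg_add]
    refine avg_mono E h0 h1 fun η _ => ?_
    obtain ⟨hf0, hf1⟩ := share_le_one S η hv
    set y := t * X v η - t ^ 2 * (rim E (cls η v)).card with hy
    have hfy : share S η v * y ≤ Real.exp y := by
      rcases le_or_gt y 0 with h | h
      · exact (mul_nonpos_of_nonneg_of_nonpos hf0 h).trans (exp_pos y).le
      · exact (mul_le_of_le_one_left h.le hf1).trans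
          ((le_add_of_nonneg_right zero_le_one).trans (Real.add_one_le_exp y))
    have heq : t * (share S η v * X v η) = t ^ 2 * (share S η v * (rim E (cls η v)).card)
        + share S η v * y := by rw [hy]; ring
    rw [heq]
    exact add_le_add le_rfl hfy
  have hcard : ∀ (η : Finset (Sym2 V)) (v : V), ((rim E (cls η v)).card : ℝ)
      = ∑ e ∈ E, ind (∃ u ∈ cls η v, u ∈ e) := by
    intro η v
    rw [rim, ← sum_boole]
    exact sum_congr rfl fun e _ => by unfold ind; congr
  have hsumg : ∀ η : Finset (Sym2 V),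
      ∑ v ∈ S, share S η v * (rim E (cls η v)).card = ∑ e ∈ E, touching S η e := by
    intro η
    simp only [hcard, mul_sum, touching]
    exact sum_comm
  have hsumX : ∀ η : Finset (Sym2 V), η ⊆ E → ∑ v ∈ S, share S η v * X v η
      = ∑ e ∈ E, touching S η e * (p - ind (e ∈ η)) := by
    intro η hη
    have ho : ∀ v, ((η ∩ rim E (cls η v)).card : ℝ)
        = ∑ e ∈ E, ind (∃ u ∈ cls η v, u ∈ e) * ind (e ∈ η) := by
      intro v
      have : η ∩ rim E (cls η v) = E.filter fun e => (∃ u ∈ cls η v, u ∈ e) ∧ e ∈ η := by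
        ext e
        simp only [rim, mem_inter, mem_filter]
        exact ⟨fun h => ⟨h.2.1, h.2.2, h.1⟩, fun h => ⟨h.2.2, h.1, h.2.1⟩⟩
      rw [this, ← sum_boole]
      refine sum_congr rfl fun e _ => ?_
      by_cases a : ∃ u ∈ cls η v, u ∈ e <;> by_cases b : e ∈ η <;> simp [ind, a, b]
    simp only [hX, hcard, ho, mul_sum, ← sum_sub_distrib, touching, sum_mul]
    rw [sum_comm]
    exact sum_congr rfl fun e _ => sum_congr rfl fun v _ => by ring
  have hleft : avg E p (fun η => ∑ v ∈ S, share S η v * X v η)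
      = p * ∑ e ∈ E, avg E p (fun η => ind (closedTwo S η e)) := by
    rw [avg_congr E p hsumX, avg_sum, mul_sum]
    refine sum_congr rfl fun e he => ?_
    rw [avg_edge he p (fun η => touching S η e * (p - ind (e ∈ η))),
      avg_edge he p (fun η => ind (closedTwo S η e))]
    have z : avg (E.erase e) p (fun η => ind (closedTwo S (insert e η) e)) = 0 :=
      (avg_congr (E.erase e) p (g := fun _ => (0 : ℝ)) fun η _ =>
        ind_false fun h => h.1 (mem_insert_self e η)).trans (avg_const _ p 0)
    have a : avg (E.erase e) p (fun η => touching S (insert e η) e * (p - ind (e ∈ insert e η)))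
        = (p - 1) * avg (E.erase e) p (fun η => touching S (insert e η) e) := by
      rw [← avg_mul]
      refine avg_congr _ p fun η _ => ?_
      rw [ind_true (mem_insert_self e η)]
      ring
    have b : avg (E.erase e) p (fun η => touching S η e * (p - ind (e ∈ η)))
        = p * avg (E.erase e) p (fun η => touching S η e) := by
      rw [← avg_mul]
      refine avg_congr _ p fun η hη => ?_
      rw [ind_false fun h => notMem_erase e E (hη h)]
      ring
    have d : avg (E.erase e) p (fun η => ind (closedTwo S η e))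
        = avg (E.erase e) p (fun η => touching S η e)
          - avg (E.erase e) p (fun η => touching S (insert e η) e) := by
      rw [← avg_sub]
      exact avg_congr _ p fun η hη =>
        (touching_drop S (hE e he) fun h => notMem_erase e E (hη h)).symm
    rw [z, a, b, d]
    ring
  have hright : avg E p (fun η => ∑ v ∈ S, share S η v * (rim E (cls η v)).card)
      ≤ 2 * E.card := by
    refine le_trans (avg_mono E h0 h1 (g := fun _ => 2 * (E.card : ℝ)) fun η _ => ?_)
      (avg_const E p _).le
    rw [hsumg η]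
    refine (sum_le_sum fun e _ => touching_le_two S η e).trans (le_of_eq ?_)
    rw [sum_const, nsmul_eq_mul, mul_comm]
  have hsum := sum_le_sum hexp
  rw [sum_add_distrib, ← mul_sum, ← mul_sum, ← avg_sum, ← avg_sum, sum_const, nsmul_eq_mul,
    mul_one, hleft] at hsum
  have h2 := mul_le_mul_of_nonneg_left hright (sq_nonneg t)
  have h3 : (t * (2 * t * E.card + (S.card : ℝ) / t)) = t ^ 2 * (2 * E.card) + S.card := by
    field_simp
  exact le_of_mul_le_mul_left (by linarith) ht

end Vale.Agent.P151.Zd
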