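import Vale.Agent.P151.Zd.TwoArm
import Vale.Agent.P151.Zd.Energy

/-!
# Uniqueness of the infinite cluster on amenable quasi-transitive graphs

Burton and Keane's theorem, by the two-arm bound and finite energy.
-/

namespace Vale.Agent.P151.Zd

open MeasureTheory ProbabilityTheory Finset Vale.Agent.P165 Vale.Agent.P151

variable {V ι : Type} [DecidableEq V] [Fintype ι] {G : SimpleGraph V} {nb : V → ι → V}

/-- Finite sets with relatively small outer boundary exist. -/
def Amenable (G : SimpleGraph V) : Prop :=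
  ∀ ε : ℝ, 0 < ε → ∃ A : Finset V, A.Nonempty ∧
    ((vertexBoundary G A).ncard : ℝ) ≤ ε * A.card

open Classical in
/-- The open edges of `E`. -/
noncomputable def openIn (E : Finset (Sym2 V)) (ω : Config G) : Finset (Sym2 V) :=
  E.filter fun e => ∃ h : e ∈ G.edgeSet, ω ⟨e, h⟩ = true

/-- An event decided by finitely many edges. -/
theorem real_openIn (p : unitInterval) {E : Finset (Sym2 V)} (hE : ↑E ⊆ G.edgeSet)
    (P : Finset (Sym2 V) → Prop) :
    (perc G p).real {ω | P (openIn E ω)} = avg E p (fun η => ind (P η)) := by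
  classical
  set good := E.powerset.filter P with hgood
  have hpat : ∀ η, η ⊆ E → pattern G E η = {ω | openIn E ω = η} := by
    intro η hη
    ext ω
    simp only [pattern, Set.mem_ofPred_eq]
    constructor
    · intro h
      ext e
      simp only [openIn, mem_filter]
      exact ⟨fun ⟨he, hG, hw⟩ => (h ⟨e, hG⟩ he).1 hw,
        fun he => ⟨hη he, hE (hη he), (h ⟨e, hE (hη he)⟩ (hη he)).2 he⟩⟩
    · rintro rfl e he
      simp only [openIn, mem_filter]
      exact ⟨fun h => ⟨he, e.2, h⟩, fun ⟨_, _, h⟩ => h⟩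
  have hset : {ω : Config G | P (openIn E ω)} = ⋃ η ∈ good, pattern G E η := by
    ext ω
    simp only [Set.mem_ofPred_eq, Set.mem_iUnion, exists_prop, hgood, mem_filter, mem_powerset]
    constructor
    · intro h
      refine ⟨openIn E ω, ⟨filter_subset _ _, h⟩, ?_⟩
      rw [hpat (openIn E ω) (filter_subset _ _)]
      rfl
    · rintro ⟨η, ⟨hη, hP⟩, hω⟩
      rw [hpat η hη] at hω
      rw [show openIn E ω = η from hω]
      exact hP
  rw [hset, measureReal_biUnion_finset]
  · rw [avg, hgood, sum_filter]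
    refine sum_congr rfl fun η hη => ?_
    rw [(real_pattern p hE (mem_powerset.1 hη)).2]
    by_cases h : P η <;> simp [ind, h]
  · intro a ha b hb hab
    refine Set.disjoint_left.2 fun ω h h' => hab ?_
    rw [hpat a (mem_powerset.1 (mem_filter.1 ha).1)] at h
    rw [hpat b (mem_powerset.1 (mem_filter.1 hb).1)] at h'
    exact h.symm.trans h'
  · exact fun η hη => (real_pattern p hE (mem_powerset.1 (mem_filter.1 hη).1)).1

/-- Two infinite clusters at `u` and `w`, distinct. -/
def split (G : SimpleGraph V) (u w : V) : Set (Config G) :=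
  (infAt G u ∩ infAt G w) \ reach G u w

theorem measurableSet_split [Countable V] (hl : Listing G nb) (u w : V) :
    MeasurableSet (split G u w) :=
  ((measurableSet_infAt hl u).inter (measurableSet_infAt hl w)).diff (measurableSet_reach hl u w)

/-- The outer boundary of a finite set, as a finite set. -/
def bd (nb : V → ι → V) (Λ : Finset V) : Finset V :=
  (Λ ×ˢ (univ : Finset ι)).image (fun q => nb q.1 q.2) \ Λ

/-- A set together with its outer boundary. -/
def grow (nb : V → ι → V) (Λ : Finset V) : Finset V := Λ ∪ bd nb Λ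

theorem coe_bd (hl : Listing G nb) (Λ : Finset V) :
    (bd nb Λ : Set V) = vertexBoundary G Λ := by
  ext v
  simp only [bd, coe_sdiff, Set.mem_sdiff, mem_coe, mem_image, mem_product, mem_univ, and_true,
    vertexBoundary, Set.mem_ofPred_eq, Prod.exists]
  constructor
  · rintro ⟨⟨u, a, hu, rfl⟩, hv⟩
    exact ⟨hv, u, hu, hl.adj_nb u a⟩
  · rintro ⟨hv, u, hu, h⟩
    obtain ⟨a, rfl⟩ := (hl.adj u v).1 h
    exact ⟨⟨u, a, hu, rfl⟩, hv⟩

theorem card_bd_le (Λ : Finset V) : (bd nb Λ).card ≤ Fintype.card ι * Λ.card := by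
  refine (card_le_card sdiff_subset).trans (card_image_le.trans (le_of_eq ?_))
  rw [card_product, card_univ, Nat.mul_comm]

theorem card_grow_le (Λ : Finset V) : (grow nb Λ).card ≤ (Fintype.card ι + 1) * Λ.card := by
  refine (card_union_le _ _).trans ?_
  have := card_bd_le (nb := nb) Λ
  rw [add_mul, one_mul]
  omega

theorem card_bd_grow_le (Λ : Finset V) :
    (bd nb (grow nb Λ)).card ≤ Fintype.card ι * (bd nb Λ).card := by
  have h : bd nb (grow nb Λ) ⊆ (bd nb Λ ×ˢ (univ : Finset ι)).image (fun q => nb q.1 q.2) := by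
    intro v hv
    obtain ⟨hv1, hv2⟩ := mem_sdiff.1 hv
    obtain ⟨⟨x, a⟩, hxa, rfl⟩ := mem_image.1 hv1
    refine mem_image.2 ⟨(x, a), mem_product.2 ⟨?_, mem_univ _⟩, rfl⟩
    rcases mem_union.1 (mem_product.1 hxa).1 with hx | hx
    · refine absurd ?_ hv2
      by_cases hin : nb x a ∈ Λ
      · exact mem_union_left _ hin
      · exact mem_union_right _
          (mem_sdiff.2 ⟨mem_image.2 ⟨(x, a), mem_product.2 ⟨hx, mem_univ _⟩, rfl⟩, hin⟩)
    · exact hx
  refine (card_le_card h).trans (card_image_le.trans (le_of_eq ?_))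
  rw [card_product, card_univ, Nat.mul_comm]

theorem card_grow_iterate_le (Λ : Finset V) : ∀ D : ℕ,
    ((grow nb)^[D] Λ).card ≤ (Fintype.card ι + 1) ^ D * Λ.card
  | 0 => by simp
  | D + 1 => by
      rw [Function.iterate_succ_apply', pow_succ, mul_comm ((Fintype.card ι + 1) ^ D), mul_assoc]
      exact (card_grow_le _).trans (Nat.mul_le_mul_left _ (card_grow_iterate_le Λ D))

theorem card_bd_iterate_le (Λ : Finset V) : ∀ D : ℕ,
    (bd nb ((grow nb)^[D] Λ)).card ≤ (Fintype.card ι + 1) ^ D * (bd nb Λ).card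
  | 0 => by simp
  | D + 1 => by
      rw [Function.iterate_succ_apply', pow_succ, mul_comm ((Fintype.card ι + 1) ^ D), mul_assoc]
      exact (card_bd_grow_le _).trans
        (Nat.mul_le_mul (Nat.le_succ _) (card_bd_iterate_le Λ D))

theorem subset_iterate_grow (Λ : Finset V) : ∀ D : ℕ, Λ ⊆ (grow nb)^[D] Λ
  | 0 => subset_refl _
  | D + 1 => by
      rw [Function.iterate_succ_apply']
      exact (subset_iterate_grow Λ D).trans subset_union_left

theorem mem_iterate_grow (hl : Listing G nb) : ∀ {x y : V} (w : G.Walk x y) (D : ℕ),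
    w.length ≤ D → ∀ Λ : Finset V, x ∈ Λ → y ∈ (grow nb)^[D] Λ := by
  intro x y w
  induction w with
  | nil => exact fun D _ Λ hx => subset_iterate_grow Λ D hx
  | @cons a b c hab w ih =>
    intro D hD Λ hx
    obtain ⟨i, rfl⟩ := (hl.adj a b).1 hab
    cases D with
    | zero => simp at hD
    | succ D =>
      rw [Function.iterate_succ_apply]
      refine ih D (by simpa using hD) _ ?_
      by_cases hb : nb a i ∈ Λ
      · exact mem_union_left _ hb
      · exact mem_union_right _
          (mem_sdiff.2 ⟨mem_image.2 ⟨(a, i), mem_product.2 ⟨hx, mem_univ _⟩, rfl⟩, hb⟩)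

theorem exits_hit (hl : Listing G nb) {Λ : Finset V} {ω : Config G} : ∀ {x z : V},
    (openGraph G ω).Walk x z → x ∈ Λ → z ∉ Λ → hit (bd nb Λ) (openIn (touch nb Λ) ω) x := by
  classical
  intro x z w
  induction w with
  | nil => exact fun h h' => absurd h h'
  | @cons a b c hab _ ih =>
    intro ha hc
    obtain ⟨hG, hw⟩ := hab
    obtain ⟨i, rfl⟩ := (hl.adj a b).1 hG
    have hedge : cl (openIn (touch nb Λ) ω) a (nb a i) :=
      cl_edge hG.ne (mem_filter.2 ⟨mem_touch ha i, hG, hw⟩)
    by_cases hb : nb a i ∈ Λ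
    · obtain ⟨v, hv, hcl⟩ := ih hb hc
      exact ⟨v, hv, hedge.trans hcl⟩
    · exact ⟨_, mem_sdiff.2 ⟨mem_image.2 ⟨(a, i), mem_product.2 ⟨ha, mem_univ _⟩, rfl⟩, hb⟩,
        hedge⟩

/-- Two distinct infinite clusters at the ends of an edge give a closed edge between two
distinct boundary clusters of any finite region containing the edge. -/
theorem split_subset_closedTwo (hl : Listing G nb) {Λ : Finset V} {u : V} (a : ι)
    (hu : u ∈ Λ) :
    split G u (nb u a)
      ⊆ {ω | closedTwo (bd nb Λ) (openIn (touch nb Λ) ω) s(u, nb u a)} := by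
  classical
  rintro ω ⟨⟨hiu, hiw⟩, hr⟩
  have hG := hl.adj_nb u a
  have hclosed : ¬ ∃ h : G.Adj u (nb u a), ω ⟨s(u, nb u a), h⟩ = true :=
    fun h => hr (SimpleGraph.Adj.reachable (G := openGraph G ω) h)
  have hesc : ∀ x, ω ∈ infAt G x → x ∈ Λ → hit (bd nb Λ) (openIn (touch nb Λ) ω) x := by
    intro x hx hxΛ
    obtain ⟨z, hz, hzΛ⟩ := Set.Infinite.exists_notMem_finset hx Λ
    obtain ⟨w⟩ := hz
    exact exits_hit hl w hxΛ hzΛ
  refine ⟨fun h => ?_, u, nb u a, rfl, hesc u hiu hu, ?_, ?_⟩
  · obtain ⟨-, hG', hw⟩ := mem_filter.1 h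
    exact hclosed ⟨hG', hw⟩
  · by_cases hw : nb u a ∈ Λ
    · exact hesc _ hiw hw
    · exact ⟨_, mem_sdiff.2 ⟨mem_image.2 ⟨(u, a), mem_product.2 ⟨hu, mem_univ _⟩, rfl⟩, hw⟩,
        SimpleGraph.Reachable.refl _⟩
  · intro hcl
    refine hr (SimpleGraph.Reachable.mono ?_ hcl)
    intro x y hxy
    obtain ⟨h1, -⟩ := (SimpleGraph.fromEdgeSet_adj _).1 hxy
    exact (mem_filter.1 (mem_coe.1 h1)).2

omit [DecidableEq V] [Fintype ι] in
/-- Automorphisms preserve the chance of two distinct infinite clusters at given vertices. -/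
theorem split_map (φ : G ≃g G) (p : unitInterval) (u w : V)
    (hm : MeasurableSet (split G u w)) :
    perc G p (split G (φ u) (φ w)) = perc G p (split G u w) := by
  let f : Config G → Config G := fun ω e => ω (φ.mapEdgeSet e)
  have hmap : (perc G p).map f = perc G p := by
    have hf : f = MeasurableEquiv.piCongrLeft (fun _ : G.edgeSet => Bool) φ.mapEdgeSet.symm := by
      funext ω e
      obtain ⟨e', rfl⟩ := φ.mapEdgeSet.symm.surjective e
      rw [MeasurableEquiv.piCongrLeft_apply_apply]
      exact congrArg ω (φ.mapEdgeSet.apply_symm_apply e')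
    rw [hf]
    exact Measure.infinitePi_map_piCongrLeft (fun _ : G.edgeSet => bernoulliMeasure true false p)
      φ.mapEdgeSet.symm
  have hadj : ∀ ω a b, (openGraph G (f ω)).Adj a b ↔ (openGraph G ω).Adj (φ a) (φ b) := by
    intro ω a b
    constructor
    · rintro ⟨h, hv⟩
      refine ⟨φ.map_adj_iff.2 h, ?_⟩
      have : φ.mapEdgeSet ⟨s(a, b), h⟩ = ⟨s(φ a, φ b), φ.map_adj_iff.2 h⟩ := rfl
      rw [← this]; exact hv
    · rintro ⟨h, hv⟩
      exact ⟨φ.map_adj_iff.1 h, hv⟩
  have hpre : f ⁻¹' split G u w = split G (φ u) (φ w) := by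
    ext ω
    let ψ : openGraph G (f ω) ≃g openGraph G ω :=
      { toEquiv := φ.toEquiv, map_rel_iff' := fun {a b} => (hadj ω a b).symm }
    have hinf : ∀ y, (f ω ∈ infAt G y ↔ ω ∈ infAt G (φ y)) := by
      intro y
      have hset : {z | (openGraph G ω).Reachable (φ y) z}
          = φ '' {z | (openGraph G (f ω)).Reachable y z} := by
        ext z
        obtain ⟨x, rfl⟩ := φ.surjective z
        rw [φ.injective.mem_set_image]
        exact ψ.reachable_iff (u := y) (v := x)
      show Set.Infinite _ ↔ Set.Infinite _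
      rw [hset, Set.infinite_image_iff φ.injective.injOn]
    have hreach : f ω ∈ reach G u w ↔ ω ∈ reach G (φ u) (φ w) :=
      (ψ.reachable_iff (u := u) (v := w)).symm
    simp only [split, Set.mem_preimage, Set.mem_sdiff, Set.mem_inter_iff, hinf, hreach]
  rw [← hpre, ← Measure.map_apply ?_ hm, hmap]
  exact measurable_pi_lambda _ fun e => measurable_pi_apply _

/-- An edge has no two distinct infinite clusters at its ends. -/
theorem split_adj_null (hl : Listing G nb) (hc : G.Connected) (hq : QuasiTransitive G)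
    (ha : Amenable G) (p : unitInterval) (hp : 0 < (p : ℝ)) (u₀ : V) (a₀ : ι) :
    perc G p (split G u₀ (nb u₀ a₀)) = 0 := by
  classical
  have : Countable V := countable_of_connected hl hc
  by_contra hne
  set μ := perc G p
  set δ := μ.real (split G u₀ (nb u₀ a₀)) with hδ
  have hδ0 : 0 < δ := ENNReal.toReal_pos hne (measure_ne_top _ _)
  obtain ⟨D, hD⟩ : ∃ D, ∀ x, ∃ ψ : G ≃g G, ∃ w : G.Walk x (ψ u₀), w.length ≤ D := by
    obtain ⟨R, hR⟩ := hq
    refine ⟨R.sup fun r => ((hc.preconnected r u₀).some).length, fun x => ?_⟩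
    obtain ⟨φ, hφ⟩ := hR x
    refine ⟨φ.symm, ((hc.preconnected (φ x) u₀).some.map φ.symm.toHom).copy (by simp) rfl, ?_⟩
    rw [SimpleGraph.Walk.length_copy, SimpleGraph.Walk.length_map]
    exact Finset.le_sup (f := fun r => ((hc.preconnected r u₀).some).length) hφ
  choose ψ wk hwk using hD
  set k : ℝ := (Fintype.card ι : ℝ) with hk
  set K : ℝ := (k + 1) ^ D with hK
  have hk0 : 0 ≤ k := Nat.cast_nonneg _
  have hK1 : 1 ≤ K := one_le_pow₀ (by linarith)
  set C : ℝ := 2 * K ^ 2 * (2 * k + 1) with hC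
  have hC0 : 0 < C := by positivity
  set t : ℝ := min 1 ((p : ℝ) * δ / (2 * C)) with ht
  have ht0 : 0 < t := lt_min one_pos (by positivity)
  have htC : C * t < (p : ℝ) * δ := by
    have hpd : 0 < (p : ℝ) * δ := by positivity
    have h1 := mul_le_mul_of_nonneg_left (min_le_right 1 ((p : ℝ) * δ / (2 * C))) hC0.le
    rw [← ht] at h1
    have h2 : C * ((p : ℝ) * δ / (2 * C)) = (p : ℝ) * δ / 2 := by field_simp
    linarith
  obtain ⟨A, hA, hAb⟩ := ha (t ^ 2) (by positivity)
  rw [← coe_bd hl, Set.ncard_coe_finset] at hAb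
  set Λ := (grow nb)^[D] A with hΛ
  set U := A.image fun x => ψ x u₀ with hU
  have hUΛ : U ⊆ Λ := by
    intro z hz
    obtain ⟨x, hx, rfl⟩ := mem_image.1 hz
    exact mem_iterate_grow hl (wk x) D (hwk x) A hx
  have hAU : (A.card : ℝ) ≤ K * U.card := by
    have h := card_le_mul_card_image (f := fun x => ψ x u₀) A ((Fintype.card ι + 1) ^ D)
      fun z _ => by
        refine (card_le_card (fun x hx => ?_)).trans
          ((card_grow_iterate_le (nb := nb) ({z} : Finset V) D).trans (by rw [card_singleton, mul_one]))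
        obtain ⟨-, rfl⟩ := mem_filter.1 hx
        exact mem_iterate_grow hl (wk x).reverse D
          (by rw [SimpleGraph.Walk.length_reverse]; exact hwk x) _ (mem_singleton_self _)
    calc (A.card : ℝ) ≤ (((Fintype.card ι + 1) ^ D * U.card : ℕ) : ℝ) := by
          exact_mod_cast h
      _ = K * U.card := by rw [hK, hk]; push_cast; ring
  set E := touch nb Λ with hE
  have hEG : ↑E ⊆ G.edgeSet := fun e he => touch_adj hl he
  set f : Sym2 V → ℝ := fun e => avg E p (fun η => ind (closedTwo (bd nb Λ) η e)) with hf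
  have hf0 : ∀ e, 0 ≤ f e := fun e => avg_nonneg E p.2.1 p.2.2 fun η _ => ind_nonneg _
  have hedge : ∀ z ∈ U, ∃ e ∈ E, z ∈ e ∧ δ ≤ f e := by
    intro z hz
    obtain ⟨x, hx, rfl⟩ := mem_image.1 hz
    obtain ⟨b, hb⟩ := (hl.adj _ _).1 ((ψ x).map_adj_iff.2 (hl.adj_nb u₀ a₀))
    refine ⟨s(ψ x u₀, nb (ψ x u₀) b), mem_touch (hUΛ hz) b, Sym2.mem_mk_left _ _, ?_⟩
    rw [hδ, measureReal_def, ← split_map (ψ x) p _ _ (measurableSet_split hl _ _), ← hb,
      ← measureReal_def, hf]
    refine (measureReal_mono (split_subset_closedTwo hl b (hUΛ hz))).trans (le_of_eq ?_)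
    exact real_openIn p hEG fun η => closedTwo (bd nb Λ) η s(ψ x u₀, nb (ψ x u₀) b)
  have : Nonempty (Sym2 V) := ⟨s(u₀, u₀)⟩
  choose! ed hedE hedz hedf using hedge
  have hsum : δ * U.card ≤ 2 * ∑ e ∈ E, f e := by
    calc δ * U.card = ∑ _z ∈ U, δ := by rw [sum_const, nsmul_eq_mul, mul_comm]
      _ ≤ ∑ z ∈ U, f (ed z) := sum_le_sum hedf
      _ = ∑ e ∈ E, ∑ z ∈ U.filter (fun z => ed z = e), f (ed z) :=
          (sum_fiberwise_of_maps_to hedE _).symm
      _ ≤ ∑ e ∈ E, 2 * f e := by
          refine sum_le_sum fun e _ => ?_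
          rw [sum_congr rfl (g := fun _ => f e) fun z hz => by rw [(mem_filter.1 hz).2],
            sum_const, nsmul_eq_mul]
          refine mul_le_mul_of_nonneg_right ?_ (hf0 e)
          have : (U.filter fun z => ed z = e).card ≤ 2 := by
            refine (card_le_card (t := e.toFinset) fun z hz => ?_).trans ?_
            · obtain ⟨h1, rfl⟩ := mem_filter.1 hz
              exact Sym2.mem_toFinset.2 (hedz z h1)
            · induction e using Sym2.ind with
              | _ a b => rw [Sym2.toFinset_mk_eq]; exact card_le_two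
          exact_mod_cast this
      _ = 2 * ∑ e ∈ E, f e := (mul_sum _ _ _).symm
  have hmain := sum_closedTwo_le E (fun e he => G.not_isDiag_of_mem_edgeSet (hEG he))
    (bd nb Λ) p.2.1 p.2.2 ht0 (min_le_left _ _)
  have hΛc : (Λ.card : ℝ) ≤ K * A.card := by
    calc (Λ.card : ℝ) ≤ (((Fintype.card ι + 1) ^ D * A.card : ℕ) : ℝ) := by
          exact_mod_cast card_grow_iterate_le A D
      _ = K * A.card := by rw [hK, hk]; push_cast; ring
  have hS : ((bd nb Λ).card : ℝ) ≤ K * (t ^ 2 * A.card) := by
    refine le_trans ?_ (mul_le_mul_of_nonneg_left hAb (by linarith))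
    calc ((bd nb Λ).card : ℝ) ≤ (((Fintype.card ι + 1) ^ D * (bd nb A).card : ℕ) : ℝ) := by
          exact_mod_cast card_bd_iterate_le A D
      _ = K * (bd nb A).card := by rw [hK, hk]; push_cast; ring
  have hEc : (E.card : ℝ) ≤ k * Λ.card := by
    have : E.card ≤ Fintype.card ι * Λ.card :=
      card_image_le.trans (le_of_eq (by rw [card_product, card_univ, Nat.mul_comm]))
    rw [hk]
    exact_mod_cast this
  have hEA : (E.card : ℝ) ≤ k * (K * A.card) := hEc.trans (mul_le_mul_of_nonneg_left hΛc hk0)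
  have hS' : ((bd nb Λ).card : ℝ) / t ≤ K * (t * A.card) := by
    rw [div_le_iff₀ ht0]
    calc ((bd nb Λ).card : ℝ) ≤ K * (t ^ 2 * A.card) := hS
      _ = K * (t * A.card) * t := by ring
  have hcard : (0 : ℝ) < A.card := by exact_mod_cast card_pos.2 hA
  have h1 : (p : ℝ) * δ * A.card ≤ C * t * A.card := by
    have a1 := mul_le_mul_of_nonneg_left hAU (mul_nonneg hp.le hδ0.le)
    have a2 := mul_le_mul_of_nonneg_left hsum (mul_nonneg hp.le (zero_le_one.trans hK1))
    have a3 := mul_le_mul_of_nonneg_left hEA (mul_nonneg zero_le_two ht0.le)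
    have a4 : (p : ℝ) * ∑ e ∈ E, f e ≤ t * K * A.card * (2 * k + 1) := by
      simp only [hf]
      linarith
    have a5 := mul_le_mul_of_nonneg_left a4 (by linarith : (0 : ℝ) ≤ 2 * K)
    rw [hC]
    linarith
  linarith [le_of_mul_le_mul_right h1 hcard]

/-- Burton and Keane: on an amenable quasi-transitive graph there are almost surely no two
distinct infinite clusters. -/
theorem twoInfinite_null_of_pos (hl : Listing G nb) (hc : G.Connected) (hq : QuasiTransitive G)
    (ha : Amenable G) (p : unitInterval) (hp : 0 < (p : ℝ)) :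
    perc G p (twoInfinite G) = 0 := by
  classical
  have : Countable V := countable_of_connected hl hc
  have key : ∀ {y z : V}, G.Walk y z → perc G p (split G y z) = 0 := by
    intro y z w
    induction w with
    | nil =>
      exact measure_mono_null (t := ∅)
        (fun ω h => absurd (SimpleGraph.Reachable.refl _) h.2) measure_empty
    | @cons a b c hab _ ih =>
      obtain ⟨i, rfl⟩ := (hl.adj a b).1 hab
      set e : G.edgeSet := ⟨s(a, nb a i), hl.adj_nb a i⟩ with he
      have hE := setEdge_open_null p hp e (measurableSet_split hl (nb a i) c) ih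
      refine measure_mono_null (fun ω hω => ?_)
        (measure_union_null (measure_union_null (split_adj_null hl hc hq ha p hp a i) ih) hE)
      obtain ⟨⟨hia, hic⟩, hr⟩ := hω
      by_cases hab' : (openGraph G ω).Reachable a (nb a i)
      · refine Or.inl (Or.inr ⟨⟨hia.mono fun z hz => hab'.symm.trans hz, hic⟩, fun h => ?_⟩)
        exact hr (hab'.trans h)
      by_cases hbc : (openGraph G ω).Reachable (nb a i) c
      · exact Or.inl (Or.inl ⟨⟨hia, hic.mono fun z hz => hbc.trans hz⟩, hab'⟩)
      refine Or.inr ⟨⟨?_, hic.mono fun z hz => hz.mono (le_setEdge_true e ω)⟩, fun h => ?_⟩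
      · have hopen : (openGraph G (setEdge e true ω)).Adj (nb a i) a := by
          refine ⟨(hl.adj_nb a i).symm, ?_⟩
          have : (⟨s(nb a i, a), (hl.adj_nb a i).symm⟩ : G.edgeSet) = e :=
            Subtype.ext Sym2.eq_swap
          rw [this]
          simp [setEdge]
        exact hia.mono fun z hz => hopen.reachable.trans (hz.mono (le_setEdge_true e ω))
      · rcases reach_setEdge_cases (e := e) (u := a) (v := nb a i) rfl h with h | h | h
        · exact hbc h
        · exact hr h
        · exact hbc h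
  unfold twoInfinite
  rw [measure_iUnion_null_iff]
  intro y
  rw [measure_iUnion_null_iff]
  intro z
  exact key (hc.preconnected y z).some

/-- Burton and Keane at every parameter. -/
theorem twoInfinite_null (hl : Listing G nb) (hc : G.Connected) (hq : QuasiTransitive G)
    (ha : Amenable G) (p : unitInterval) : perc G p (twoInfinite G) = 0 := by
  classical
  have : Countable V := countable_of_connected hl hc
  rcases p.2.1.eq_or_lt with h0 | h0
  · unfold twoInfinite
    rw [measure_iUnion_null_iff]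
    intro y
    rw [measure_iUnion_null_iff]
    intro z
    refine measure_mono_null (t := ⋃ i, openOn G {s(y, nb y i)}) (fun ω hω => ?_)
      (measure_iUnion_null fun i => ?_)
    · obtain ⟨u, hu, hne⟩ := Set.Infinite.exists_notMem_finset hω.1.1 {y}
      obtain ⟨w⟩ := hu
      cases w with
      | nil => simp at hne
      | cons hab _ =>
        obtain ⟨hG, hw⟩ := hab
        obtain ⟨i, rfl⟩ := (hl.adj _ _).1 hG
        refine Set.mem_iUnion.2 ⟨i, fun e he => ?_⟩
        have : e = ⟨s(y, nb y i), hG⟩ := Subtype.ext (mem_singleton.1 he)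
        rw [this]
        exact hw
    · have h := real_openOn (G := G) p (S := {s(y, nb y i)}) (by simpa using hl.adj_nb y i)
      rw [card_singleton, pow_one, ← h0, measureReal_def, ENNReal.toReal_eq_zero_iff] at h
      exact h.resolve_right (measure_ne_top _ _)
  · exact twoInfinite_null_of_pos hl hc hq ha p h0

end Vale.Agent.P151.Zd
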